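import Vale.Agent.P194.Basic

/-
A coloured version of the theorem of Erdos and Sachs on graphs of large girth.
-/

namespace Vale.Agent.P194

open Classical

section
variable {V Λ : Type} {ι : Λ → Λ} {E : V → Λ → V → Prop}

/-- The two orientations of a new edge. -/
def NewE (ι : Λ → Λ) (p : V) (s : Λ) (q : V) : V → Λ → V → Prop :=
  fun x a y => (x = p ∧ a = s ∧ y = q) ∨ (x = q ∧ a = ι s ∧ y = p)

/-- Adding an edge. -/
def AddE (ι : Λ → Λ) (E : V → Λ → V → Prop) (p : V) (s : Λ) (q : V) : V → Λ → V → Prop :=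
  fun x a y => E x a y ∨ NewE ι p s q x a y

/-- Removing an edge. -/
def DelE (ι : Λ → Λ) (E : V → Λ → V → Prop) (p : V) (s : Λ) (q : V) : V → Λ → V → Prop :=
  fun x a y => E x a y ∧ ¬ NewE ι p s q x a y

theorem newE_symm (hι : ∀ a, ι (ι a) = a) (p : V) (s : Λ) (q : V) : Symm ι (NewE ι p s q) := by
  rintro x a y (⟨rfl, rfl, rfl⟩ | ⟨rfl, rfl, rfl⟩)
  · exact Or.inr ⟨rfl, rfl, rfl⟩
  · exact Or.inl ⟨rfl, hι _, rfl⟩

theorem addE_symm (hι : ∀ a, ι (ι a) = a) (hs : Symm ι E) (p : V) (s : Λ) (q : V) :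
    Symm ι (AddE ι E p s q) := by
  rintro x a y (h | h)
  · exact Or.inl (hs _ _ _ h)
  · exact Or.inr (newE_symm hι p s q _ _ _ h)

theorem delE_symm (hι : ∀ a, ι (ι a) = a) (hs : Symm ι E) (p : V) (s : Λ) (q : V) :
    Symm ι (DelE ι E p s q) := by
  rintro x a y ⟨h, h'⟩
  refine ⟨hs _ _ _ h, fun h2 => h' ?_⟩
  have := newE_symm hι p s q _ _ _ h2
  rwa [hι] at this

theorem addE_det (hι' : ∀ a, ι a ≠ a) (hd : Det E) {p q : V} {s : Λ} (hp : ¬ ∃ y, E p s y)
    (hq : ¬ ∃ y, E q (ι s) y) : Det (AddE ι E p s q) := by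
  rintro x a y y' (h | ⟨rfl, rfl, rfl⟩ | ⟨rfl, rfl, rfl⟩) (h' | ⟨h1, h2, h3⟩ | ⟨h1, h2, h3⟩)
  · exact hd _ _ _ _ h h'
  · subst h1 h2
    exact absurd ⟨_, h⟩ hp
  · subst h1 h2
    exact absurd ⟨_, h⟩ hq
  · exact absurd ⟨_, h'⟩ hp
  · exact h3.symm
  · exact absurd h2.symm (hι' _)
  · exact absurd ⟨_, h'⟩ hq
  · exact absurd h2 (hι' _)
  · exact h3.symm

theorem addE_split {p q : V} {s : Λ} {x y : V} {w : List Λ} (h : Path (AddE ι E p s q) x w y) :
    Path E x w y ∨ ∃ w1 a w2 x1 y1, w = w1 ++ a :: w2 ∧ Path E x w1 x1 ∧ NewE ι p s q x1 a y1 ∧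
      Path (AddE ι E p s q) y1 w2 y := by
  induction h with
  | nil x => exact Or.inl (Path.nil _)
  | @cons x y z a w h1 h2 ih =>
    rcases h1 with h1 | h1
    · rcases ih with ih | ⟨w1, b, w2, x1, y1, rfl, e1, e2, e3⟩
      · exact Or.inl (Path.cons h1 ih)
      · exact Or.inr ⟨a :: w1, b, w2, x1, y1, rfl, Path.cons h1 e1, e2, e3⟩
    · exact Or.inr ⟨[], a, w, x, y, rfl, Path.nil _, h1, h2⟩

theorem addE_girth (hι : ∀ a, ι (ι a) = a) (hs : Symm ι E) {g : ℕ} (hg : Girth ι E g)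
    {p q : V} {s : Λ} (hfar : ∀ w, Path E p w q → g ≤ w.length + 1) :
    Girth ι (AddE ι E p s q) g := by
  have hfar' : ∀ w, Path E q w p → g ≤ w.length + 1 := fun w h => by
    simpa using hfar _ (h.inv hs)
  intro x w hr hp hl
  rcases addE_split hp with h | ⟨w1, a, w2, x1, y1, rfl, e1, e2, e3⟩
  · exact hg _ _ hr h hl
  exfalso
  simp at hl
  rcases addE_split e3 with h | ⟨w3, b, w4, x2, y2, rfl, f1, f2, -⟩
  · have := h.append e1
    rcases e2 with ⟨rfl, -, rfl⟩ | ⟨rfl, -, rfl⟩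
    · have := hfar' _ this
      simp at this
      omega
    · have := hfar _ this
      simp at this
      omega
  · simp at hl
    have hr1 : Red ι (a :: (w3 ++ b :: w4)) := hr.right
    have hr3 : Red ι w3 := hr1.tail.left
    rcases e2 with ⟨rfl, rfl, rfl⟩ | ⟨rfl, rfl, rfl⟩
    · rcases f2 with ⟨rfl, -, -⟩ | ⟨rfl, rfl, -⟩
      · have := hfar' _ f1
        omega
      · have := hg _ _ hr3 f1 (by omega)
        subst this
        exact (red_cons_cons.1 hr1).1 rfl
    · rcases f2 with ⟨rfl, rfl, -⟩ | ⟨rfl, -, -⟩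
      · have := hg _ _ hr3 f1 (by omega)
        subst this
        exact (red_cons_cons.1 hr1).1 (hι _).symm
      · have := hfar _ f1
        omega

theorem ball_ncard [Finite V] [Finite Λ] (hd : Det E) {d : ℕ}
    (hdeg : ∀ v, {a | ∃ y, E v a y}.ncard ≤ d) (n : ℕ) :
    ∀ x, {y | ∃ w : List Λ, w.length ≤ n ∧ Path E x w y}.ncard ≤ (d + 1) ^ n := by
  induction n with
  | zero =>
    intro x
    have : {y | ∃ w : List Λ, w.length ≤ 0 ∧ Path E x w y} ⊆ {x} := by
      rintro y ⟨w, hw, hp⟩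
      have : w = [] := List.length_eq_zero_iff.1 (by omega)
      subst this
      exact (path_nil_iff.1 hp).symm
    simpa using Set.ncard_le_ncard this
  | succ n ih =>
    intro x
    have := Fintype.ofFinite V
    have := Fintype.ofFinite Λ
    let N : Finset V := insert x (Finset.univ.filter fun y => ∃ a, E x a y)
    have hN : N.card ≤ d + 1 := by
      refine (Finset.card_insert_le _ _).trans (Nat.add_le_add_right ?_ 1)
      refine le_trans ?_ (hdeg x)
      rw [← Set.ncard_coe_finset]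
      have hch : ∀ y : V, ∃ a : Option Λ, (∃ a, E x a y) → ∃ b, a = some b ∧ E x b y := by
        intro y
        by_cases h : ∃ a, E x a y
        · obtain ⟨a, ha⟩ := h
          exact ⟨some a, fun _ => ⟨a, rfl, ha⟩⟩
        · exact ⟨none, fun h' => absurd h' h⟩
      choose f hf using hch
      rw [← Set.ncard_image_of_injective _ (Option.some_injective Λ)]
      refine Set.ncard_le_ncard_of_injOn f ?_ ?_ (Set.toFinite _)
      · intro y hy
        simp at hy
        obtain ⟨b, hb, hb'⟩ := hf y hy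
        exact ⟨b, ⟨y, hb'⟩, hb.symm⟩
      · intro y hy y' hy' e
        simp at hy hy'
        obtain ⟨b, hb, hb'⟩ := hf y hy
        obtain ⟨c, hc, hc'⟩ := hf y' hy'
        have : b = c := Option.some.inj (hb.symm.trans (e.trans hc))
        subst this
        exact hd _ _ _ _ hb' hc'
    let B : V → Finset V := fun z =>
      Finset.univ.filter fun y => ∃ w : List Λ, w.length ≤ n ∧ Path E z w y
    have hB : ∀ z, (B z).card ≤ (d + 1) ^ n := by
      intro z
      refine le_trans (le_of_eq ?_) (ih z)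
      rw [← Set.ncard_coe_finset]
      congr 1
      ext y
      simp [B]
    have hsub : {y | ∃ w : List Λ, w.length ≤ n + 1 ∧ Path E x w y} ⊆ ↑(N.biUnion B) := by
      rintro y ⟨w, hw, hp⟩
      simp only [Finset.coe_biUnion, Set.mem_iUnion]
      cases w with
      | nil =>
        refine ⟨x, by simp [N], ?_⟩
        simp only [B, Finset.coe_filter, Finset.mem_univ, true_and, Set.mem_setOf_eq]
        exact ⟨[], by simp, hp⟩
      | cons a w =>
        obtain ⟨z, h1, h2⟩ := path_cons_iff.1 hp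
        refine ⟨z, ?_, ?_⟩
        · simp only [N, Finset.coe_insert, Finset.coe_filter, Finset.mem_univ, true_and]
          exact Or.inr ⟨a, h1⟩
        · simp only [B, Finset.coe_filter, Finset.mem_univ, true_and, Set.mem_setOf_eq]
          exact ⟨w, by simpa using hw, h2⟩
    calc _ ≤ (↑(N.biUnion B) : Set V).ncard := Set.ncard_le_ncard hsub (Set.toFinite _)
      _ = (N.biUnion B).card := Set.ncard_coe_finset _
      _ ≤ N.card * (d + 1) ^ n := Finset.card_biUnion_le_card_mul _ _ _ (fun z _ => hB z)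
      _ ≤ (d + 1) * (d + 1) ^ n := Nat.mul_le_mul_right _ hN
      _ = (d + 1) ^ (n + 1) := by ring

end

theorem erdos_sachs {V Λ C : Type} [Finite V] [Finite Λ] (ι : Λ → Λ) (hι : ∀ a, ι (ι a) = a)
    (hι' : ∀ a, ι a ≠ a) (T : V → Λ → Prop) (d g : ℕ) (hd : ∀ v, {a | T v a}.ncard ≤ d)
    (γ : V → Λ → C) (σ : Λ → C → C) (hσ : ∀ a c, σ (ι a) (σ a c) = c)
    (hbal : ∀ a c, {v | T v a ∧ γ v a = c}.ncard ≤
      {v | T v (ι a) ∧ γ v (ι a) = σ a c}.ncard)
    (hbig : ∀ a c, 2 * (d + 1) ^ g < {v | T v a ∧ γ v a = c}.ncard) :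
    ∃ E : V → Λ → V → Prop, Symm ι E ∧ Det E ∧ Girth ι E g ∧ (∀ v a, T v a → ∃ v', E v a v') ∧
      ∀ v a v', E v a v' → T v a ∧ γ v' (ι a) = σ a (γ v a) := by
  let Adm : (V → Λ → V → Prop) → Prop := fun E => Symm ι E ∧ Det E ∧ Girth ι E g ∧
    ∀ v a v', E v a v' → T v a ∧ γ v' (ι a) = σ a (γ v a)
  let Dom : (V → Λ → V → Prop) → Set (V × Λ) := fun E => {p | ∃ y, E p.1 p.2 y}
  have h0 : Adm (fun _ _ _ => False) := by
    refine ⟨fun _ _ _ h => h, fun _ _ _ _ h => h.elim, ?_, fun _ _ _ h => h.elim⟩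
    intro x w _ hp _
    cases hp with
    | nil => rfl
    | cons h _ => exact h.elim
  obtain ⟨E, hE, hmax⟩ := Set.exists_max_image {E | Adm E} (fun E => (Dom E).ncard)
    (Set.toFinite _) ⟨_, h0⟩
  obtain ⟨hs, hdet, hg, hT⟩ := hE
  refine ⟨E, hs, hdet, hg, ?_, hT⟩
  intro p s hps
  by_contra hp
  have hlt : ∀ E', Adm E' → Dom E ⊆ Dom E' → ∀ r, r ∈ Dom E' → r ∉ Dom E → False := by
    intro E' h1 h2 r h3 h4
    have := hmax E' h1
    have h5 : Dom E ⊂ Dom E' := ⟨h2, fun h => h4 (h h3)⟩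
    have := Set.ncard_lt_ncard h5 (Set.toFinite _)
    omega
  have addAdm : ∀ E', Adm E' → ∀ p q, T p s → T q (ι s) → γ q (ι s) = σ s (γ p s) →
      (¬ ∃ y, E' p s y) → (¬ ∃ y, E' q (ι s) y) → (∀ w, Path E' p w q → g ≤ w.length + 1) →
      Adm (AddE ι E' p s q) := by
    rintro E' ⟨a1, a2, a3, a4⟩ p q tp tq hγ np nq far
    refine ⟨addE_symm hι a1 _ _ _, addE_det hι' a2 np nq, addE_girth hι a1 a3 far, ?_⟩
    rintro v a v' (h | ⟨rfl, rfl, rfl⟩ | ⟨rfl, rfl, rfl⟩)
    · exact a4 _ _ _ h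
    · exact ⟨tp, hγ⟩
    · exact ⟨tq, by rw [hι, hγ, hσ]⟩
  set c := γ p s with hc
  obtain ⟨q, ⟨tq, γq⟩, nq⟩ : ∃ q, (T q (ι s) ∧ γ q (ι s) = σ s c) ∧ ¬ ∃ y, E q (ι s) y := by
    by_contra hcon
    push Not at hcon
    have hch : ∀ q : V, ∃ y, (T q (ι s) ∧ γ q (ι s) = σ s c) → E q (ι s) y := by
      intro q
      by_cases h : T q (ι s) ∧ γ q (ι s) = σ s c
      · obtain ⟨y, hy⟩ := hcon q h
        exact ⟨y, fun _ => hy⟩
      · exact ⟨q, fun h' => absurd h' h⟩
    choose f hf using hch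
    have h1 : {v | T v (ι s) ∧ γ v (ι s) = σ s c}.ncard ≤
        ({v | T v s ∧ γ v s = c} \ {p}).ncard := by
      refine Set.ncard_le_ncard_of_injOn f ?_ ?_ (Set.toFinite _)
      · intro q hq
        have e1 := hf q hq
        have e2 := hs _ _ _ e1
        rw [hι] at e2
        refine ⟨⟨(hT _ _ _ e2).1, ?_⟩, ?_⟩
        · have := (hT _ _ _ e1).2
          rw [hι, hq.2, hσ] at this
          exact this
        · intro h
          apply hp
          rw [← Set.mem_singleton_iff.1 h]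
          exact ⟨q, e2⟩
      · intro q hq q' hq' e
        have e2 := hs _ _ _ (hf q hq)
        have e3 := hs _ _ _ (hf q' hq')
        rw [← e] at e3
        exact hdet _ _ _ _ e2 e3
    have h2 := Set.ncard_diff_singleton_lt_of_mem (s := {v | T v s ∧ γ v s = c}) (a := p)
      ⟨hps, rfl⟩ (Set.toFinite _)
    have h3 := hbal s c
    omega
  have hdeg : ∀ v, {a | ∃ y, E v a y}.ncard ≤ d := fun v =>
    le_trans (Set.ncard_le_ncard (fun a ⟨y, hy⟩ => (hT _ _ _ hy).1) (Set.toFinite _)) (hd v)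
  obtain ⟨p', ⟨tp', γp'⟩, hp'⟩ : ∃ p', (T p' s ∧ γ p' s = c) ∧
      p' ∉ {y | ∃ w : List Λ, w.length ≤ g ∧ Path E p w y} ∪
        {y | ∃ w : List Λ, w.length ≤ g ∧ Path E q w y} := by
    by_contra hcon
    push Not at hcon
    have h1 := Set.ncard_le_ncard (s := {v | T v s ∧ γ v s = c}) hcon (Set.toFinite _)
    have h2 := Set.ncard_union_le {y | ∃ w : List Λ, w.length ≤ g ∧ Path E p w y}
      {y | ∃ w : List Λ, w.length ≤ g ∧ Path E q w y}
    have h3 := ball_ncard hdet hdeg g p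
    have h4 := ball_ncard hdet hdeg g q
    have h5 := hbig s c
    omega
  have farp : ∀ w, Path E p w p' → g < w.length := fun w h => by
    by_contra hh
    exact hp' (Or.inl ⟨w, by omega, h⟩)
  have farq : ∀ w, Path E q w p' → g < w.length := fun w h => by
    by_contra hh
    exact hp' (Or.inr ⟨w, by omega, h⟩)
  by_cases hA : ∃ y, E p' s y
  · obtain ⟨q', hq'⟩ := hA
    have hq'' := hs _ _ _ hq'
    have sub : ∀ x a y, DelE ι E p' s q' x a y → E x a y := fun _ _ _ h => h.1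
    have A1 : Adm (DelE ι E p' s q') :=
      ⟨delE_symm hι hs _ _ _, fun _ _ _ _ h1 h2 => hdet _ _ _ _ h1.1 h2.1,
        fun x w h1 h2 h3 => hg x w h1 (h2.mono sub) h3, fun v a v' h => hT _ _ _ h.1⟩
    have A2 : Adm (AddE ι (DelE ι E p' s q') p s q') := by
      refine addAdm _ A1 p q' hps (hT _ _ _ hq'').1 ?_ ?_ ?_ ?_
      · rw [(hT _ _ _ hq').2, γp']
      · rintro ⟨y, hy⟩
        exact hp ⟨y, hy.1⟩
      · rintro ⟨y, hy⟩
        exact hy.2 (Or.inr ⟨rfl, rfl, hdet _ _ _ _ hy.1 hq''⟩)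
      · intro w hw
        have := farp _ ((hw.mono sub).append (Path.single hq''))
        simp at this
        omega
    have hpp : p' ≠ p := by
      rintro rfl
      simpa using farp _ (Path.nil _)
    have hqq : q ≠ q' := by
      rintro rfl
      exact nq ⟨_, hq''⟩
    have A3 : Adm (AddE ι (AddE ι (DelE ι E p' s q') p s q') p' s q) := by
      refine addAdm _ A2 p' q tp' tq (by rw [γq, γp']) ?_ ?_ ?_
      · rintro ⟨y, hy | ⟨h, -, -⟩ | ⟨-, h, -⟩⟩
        · exact hy.2 (Or.inl ⟨rfl, rfl, hdet _ _ _ _ hy.1 hq'⟩)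
        · exact hpp h
        · exact hι' _ h.symm
      · rintro ⟨y, hy | ⟨-, h, -⟩ | ⟨h, -, -⟩⟩
        · exact nq ⟨y, hy.1⟩
        · exact hι' _ h
        · exact hqq h
      · intro w hw
        rcases addE_split hw with h | ⟨w1, a, w2, x1, y1, rfl, e1, e2, -⟩
        · have := farq _ ((h.mono sub).inv hs)
          simp at this
          omega
        · rcases e2 with ⟨rfl, -, -⟩ | ⟨rfl, -, -⟩
          · have := farp _ ((e1.mono sub).inv hs)
            simp at this ⊢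
            omega
          · obtain ⟨w', r1, r2, r3⟩ := e1.exists_red A1.1 A1.2.1
            by_contra hcon
            have hred : Red ι (w' ++ [ι s]) := by
              refine red_append_iff.2 ⟨r1, red_single _, ?_⟩
              intro b hb c' hc' e
              simp at hc'
              have hbs : b = s := by rw [← hι b, ← e, ← hc', hι]
              subst hbs
              obtain ⟨w'', rfl⟩ := List.getLast?_eq_some_iff.1 hb
              obtain ⟨y, -, hy⟩ := path_append_iff.1 r3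
              obtain ⟨y', hy1, hy2⟩ := path_cons_iff.1 hy
              rw [path_nil_iff.1 hy2] at hy1
              exact hy1.2 (Or.inl ⟨hdet _ _ _ _ (hs _ _ _ hy1.1) hq'', rfl, rfl⟩)
            have := hg _ _ hred ((r3.mono sub).append (Path.single hq''))
              (by simp at hcon ⊢; omega)
            simp at this
    refine hlt _ A3 ?_ (p, s) ⟨q', Or.inl (Or.inr (Or.inl ⟨rfl, rfl, rfl⟩))⟩ hp
    rintro ⟨x, a⟩ ⟨y, hy⟩
    by_cases hn : NewE ι p' s q' x a y
    · rcases hn with ⟨rfl, rfl, rfl⟩ | ⟨rfl, rfl, rfl⟩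
      · exact ⟨q, Or.inr (Or.inl ⟨rfl, rfl, rfl⟩)⟩
      · exact ⟨p, Or.inl (Or.inr (Or.inr ⟨rfl, rfl, rfl⟩))⟩
    · exact ⟨y, Or.inl (Or.inl ⟨hy, hn⟩)⟩
  · have A1 : Adm (AddE ι E p' s q) := by
      refine addAdm _ ⟨hs, hdet, hg, hT⟩ p' q tp' tq (by rw [γq, γp']) hA nq ?_
      intro w hw
      have := farq _ (hw.inv hs)
      simp at this
      omega
    exact hlt _ A1 (fun r ⟨y, hy⟩ => ⟨y, Or.inl hy⟩) (p', s)
      ⟨q, Or.inr (Or.inl ⟨rfl, rfl, rfl⟩)⟩ hA

end Vale.Agent.P194
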