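import Vale.Agent.P194.Step

/-
The limit of the level-wise construction.
-/

namespace Vale.Agent.P194

open Classical

theorem exists_colim (X : ℕ → Type) (e : ∀ n, X n → X (n + 1))
    (he : ∀ n, Function.Injective (e n)) :
    ∃ (Z : Type) (j : ∀ n, X n → Z), (∀ n, Function.Injective (j n)) ∧
      (∀ n x, j (n + 1) (e n x) = j n x) ∧ ∀ z, ∃ n x, z = j n x := by
  let j : ∀ n, X n → Σ n, X n := fun n =>
    Nat.rec (motive := fun n => X n → Σ n, X n) (fun x => ⟨0, x⟩)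
      (fun n jn y => if h : ∃ x, e n x = y then jn h.choose else ⟨n + 1, y⟩) n
  have j0 : ∀ x, j 0 x = ⟨0, x⟩ := fun _ => rfl
  have js : ∀ n y, j (n + 1) y = if h : ∃ x, e n x = y then j n h.choose else ⟨n + 1, y⟩ :=
    fun _ _ => rfl
  have hc : ∀ n x, j (n + 1) (e n x) = j n x := by
    intro n x
    have h : ∃ x', e n x' = e n x := ⟨x, rfl⟩
    rw [js, dif_pos h, he n h.choose_spec]
  have hle : ∀ n x, (j n x).1 ≤ n := by
    intro n
    induction n with
    | zero => intro x; rw [j0]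
    | succ n ih =>
      intro y
      rw [js]
      split_ifs with h
      · exact (ih _).trans (Nat.le_succ _)
      · exact le_rfl
  have hinj : ∀ n, Function.Injective (j n) := by
    intro n
    induction n with
    | zero =>
      intro x y h
      rw [j0, j0] at h
      exact eq_of_heq (Sigma.mk.inj h).2
    | succ n ih =>
      intro x y h
      by_cases hx : ∃ x', e n x' = x
      · obtain ⟨x', rfl⟩ := hx
        by_cases hy : ∃ y', e n y' = y
        · obtain ⟨y', rfl⟩ := hy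
          rw [hc, hc] at h
          rw [ih h]
        · rw [hc, js, dif_neg hy] at h
          have := hle n x'
          rw [h] at this
          simp at this
      · by_cases hy : ∃ y', e n y' = y
        · obtain ⟨y', rfl⟩ := hy
          rw [hc, js, dif_neg hx] at h
          have := hle n y'
          rw [← h] at this
          simp at this
        · rw [js, js, dif_neg hx, dif_neg hy] at h
          exact eq_of_heq (Sigma.mk.inj h).2
  refine ⟨{z : Σ n, X n // ∃ n x, z = j n x}, fun n x => ⟨j n x, n, x, rfl⟩, ?_, ?_, ?_⟩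
  · intro n x y h
    exact hinj n (congrArg Subtype.val h)
  · intro n x
    exact Subtype.ext (hc n x)
  · rintro ⟨z, n, x, rfl⟩
    exact ⟨n, x, rfl⟩

section
variable {Λ V : Type}

/-- A level of the construction. -/
structure Lvl (ι : Λ → Λ) (Γ : V → Λ → V → Prop) (P : ℕ) : Type 1 where
  X : Type
  E : X → Λ → X → Prop
  good : GoodX ι Γ P E

/-- The tower of levels. -/
noncomputable def tower {ι : Λ → Λ} {Γ : V → Λ → V → Prop} {P g D : ℕ} (hΓ : Good ι Γ P g D)
    (L : Lvl ι Γ P) : ℕ → Lvl ι Γ P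
  | 0 => L
  | n + 1 => ⟨Nxt (tower hΓ L n).X Λ V, nxtE ι Γ P (tower hΓ L n).E,
      nxt_good hΓ (tower hΓ L n).good⟩

/-- The properties of the limit graph with its level function and anchors. -/
structure Levels {Z : Type} (ι : Λ → Λ) (Γ : V → Λ → V → Prop) (P D : ℕ)
    (E : Z → Λ → Z → Prop) (lev : Z → ℕ) (An : Z → Z → Prop) : Prop where
  symm : Symm ι E
  det : Det E
  full : ∀ z v, Full Γ E z v
  lip : ∀ z a z', E z a z' → lev z' ≤ lev z + 1
  conv : ∀ n z w z', Geo E z w z' → lev z ≤ n → lev z' ≤ n → Path (Res E (lev · ≤ n)) z w z'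
  an_adj : ∀ z a x, E z a x → lev x < lev z → An z x
  an_lev : ∀ z x, An z x → lev x + 1 = lev z
  an_ex : ∀ z a z', E z a z' → lev z' ≤ lev z → 0 < lev z → ∃ x, An z x
  an_close : ∀ n z w z' x x', Path (Res E (lev · = n + 1)) z w z' → lev z = n + 1 →
    (w.length ≤ 24 * P ∨ Geo E z w z') → An z x → An z' x' →
    ∃ r : List Λ, r.length ≤ 8 * P ∧ Path (Res E (lev · = n)) x r x'
  bdd : ∀ n z w z', Path (Res E (lev · = n + 1)) z w z' → Geo E z w z' → w.length ≤ 2 * D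

theorem exists_limit {ι : Λ → Λ} {Γ : V → Λ → V → Prop} {P g D : ℕ} (hΓ : Good ι Γ P g D)
    {X0 : Type} {E0 : X0 → Λ → X0 → Prop} (h0 : GoodX ι Γ P E0) :
    ∃ (Z : Type) (E : Z → Λ → Z → Prop) (j0 : X0 → Z) (lev : Z → ℕ) (An : Z → Z → Prop),
      Levels ι Γ P D E lev An ∧ Function.Injective j0 ∧ Mor E0 E j0 ∧
      (∀ z, lev z = 0 ↔ z ∈ Set.range j0) ∧
      ∀ (W : Type) (EW : W → Λ → W → Prop) (φ : X0 → W), Nonempty W → Symm ι EW → Det EW →
        (∀ z v, Full Γ EW z v) → Mor E0 EW φ → ∃ ψ : Z → W, Mor E EW ψ ∧ ∀ x, ψ (j0 x) = φ x := by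
  let T := tower hΓ ⟨X0, E0, h0⟩
  let X : ℕ → Type := fun n => (T n).X
  let En : ∀ n, X n → Λ → X n → Prop := fun n => (T n).E
  have good : ∀ n, GoodX ι Γ P (En n) := fun n => (T n).good
  let e : ∀ n, X n → X (n + 1) := fun n => emb V Λ
  have he : ∀ n, Function.Injective (e n) := by
    intro n x y h
    exact congrArg Prod.fst (Sum.inl.inj h)
  obtain ⟨Z, j, jinj, jc, jsurj⟩ := exists_colim X e he
  let E : Z → Λ → Z → Prop := fun z a z' => ∃ n x x', En n x a x' ∧ z = j n x ∧ z' = j n x'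
  have jmor : ∀ n, Mor (En n) E (j n) := fun n x a x' h => ⟨n, x, x', h, rfl, rfl⟩
  have emor : ∀ n, Mor (En n) (En (n + 1)) (e n) := fun n => emb_mor
  have eind : ∀ n x a y, En (n + 1) (e n x) a (e n y) → En n x a y :=
    fun n x a y h => emb_ind hΓ (good n) h
  have efull : ∀ n x v, Full Γ (En (n + 1)) (e n x) v := fun n x v => nxt_full hΓ (good n) x v
  have rmono : ∀ n m, n ≤ m → ∀ x, ∃ y, j m y = j n x := by
    intro n m h x
    induction h with
    | refl => exact ⟨x, rfl⟩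
    | step _ ih =>
      obtain ⟨y, hy⟩ := ih
      exact ⟨e _ y, by rw [jc, hy]⟩
  have up : ∀ n m, n ≤ m → ∀ x a x', En n x a x' →
      ∃ y y', En m y a y' ∧ j m y = j n x ∧ j m y' = j n x' := by
    intro n m h x a x' hx
    induction h with
    | refl => exact ⟨x, x', hx, rfl, rfl⟩
    | step _ ih =>
      obtain ⟨y, y', h1, h2, h3⟩ := ih
      exact ⟨e _ y, e _ y', emor _ _ _ _ h1, by rw [jc, h2], by rw [jc, h3]⟩
  have down : ∀ n m, n ≤ m → ∀ x a x' y y', En m y a y' → j m y = j n x → j m y' = j n x' →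
      En n x a x' := by
    intro n m h x a x'
    induction h with
    | refl =>
      intro y y' h1 h2 h3
      rw [← jinj _ h2, ← jinj _ h3]
      exact h1
    | @step m hm ih =>
      intro y y' h1 h2 h3
      obtain ⟨y1, hy1⟩ := rmono n m hm x
      obtain ⟨y2, hy2⟩ := rmono n m hm x'
      have e1 : y = e m y1 := jinj _ (by rw [jc, hy1, h2])
      have e2 : y' = e m y2 := jinj _ (by rw [jc, hy2, h3])
      rw [e1, e2] at h1
      exact ih y1 y2 (eind _ _ _ _ h1) hy1 hy2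
  have jind : ∀ n x a x', E (j n x) a (j n x') → En n x a x' := by
    rintro n x a x' ⟨m, y, y', h1, h2, h3⟩
    obtain ⟨y1, y2, h4, h5, h6⟩ := up m (max m n) (le_max_left _ _) _ _ _ h1
    exact down n (max m n) (le_max_right _ _) _ _ _ y1 y2 h4 (by rw [h5, h2]) (by rw [h6, h3])
  have hex : ∀ z, ∃ n, z ∈ Set.range (j n) := fun z => by
    obtain ⟨n, x, rfl⟩ := jsurj z
    exact ⟨n, x, rfl⟩
  let lev : Z → ℕ := fun z => Nat.find (hex z)
  have lev_le : ∀ z n, lev z ≤ n ↔ z ∈ Set.range (j n) := by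
    intro z n
    constructor
    · intro h
      obtain ⟨x, hx⟩ := Nat.find_spec (hex z)
      obtain ⟨y, hy⟩ := rmono _ n h x
      exact ⟨y, hy.trans hx⟩
    · intro h
      exact Nat.find_min' _ h
  have lev_j : ∀ n x, lev (j n x) ≤ n := fun n x => (lev_le _ _).2 ⟨x, rfl⟩
  have lev_new : ∀ n y, y ∉ Set.range (e n) ↔ lev (j (n + 1) y) = n + 1 := by
    intro n y
    constructor
    · intro hy
      have h1 := lev_j (n + 1) y
      by_contra hne
      obtain ⟨x, hx⟩ := (lev_le (j (n + 1) y) n).1 (by omega)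
      exact hy ⟨x, jinj _ (by rw [jc, hx])⟩
    · rintro h ⟨x, rfl⟩
      rw [jc] at h
      have := lev_j n x
      omega
  have lev_nf : ∀ n x, NF Γ (En n) x → lev (j n x) = n := by
    rintro n x ⟨v, hv⟩
    cases n with
    | zero => exact Nat.le_zero.1 (lev_j 0 x)
    | succ n =>
      rw [← lev_new]
      rintro ⟨y, rfl⟩
      exact hv (efull n y v)
  have hsymm : Symm ι E := by
    rintro z a z' ⟨n, x, x', h, rfl, rfl⟩
    exact ⟨n, x', x, (good n).symm _ _ _ h, rfl, rfl⟩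
  have common : ∀ z1 z2 z3, ∃ M x1 x2 x3, z1 = j M x1 ∧ z2 = j M x2 ∧ z3 = j M x3 := by
    intro z1 z2 z3
    obtain ⟨M, h1, h2, h3⟩ : ∃ M, lev z1 ≤ M ∧ lev z2 ≤ M ∧ lev z3 ≤ M :=
      ⟨lev z1 + lev z2 + lev z3, by omega, by omega, by omega⟩
    obtain ⟨x1, e1⟩ := (lev_le _ _).1 h1
    obtain ⟨x2, e2⟩ := (lev_le _ _).1 h2
    obtain ⟨x3, e3⟩ := (lev_le _ _).1 h3
    exact ⟨M, x1, x2, x3, e1.symm, e2.symm, e3.symm⟩
  have hdet : Det E := by
    intro z a z1 z2 h1 h2
    obtain ⟨M, x, x1, x2, rfl, rfl, rfl⟩ := common z z1 z2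
    rw [(good M).det _ _ _ _ (jind _ _ _ _ h1) (jind _ _ _ _ h2)]
  have hfull : ∀ z v, Full Γ E z v := by
    intro z v
    obtain ⟨n, x, rfl⟩ := jsurj z
    obtain ⟨f, hf, hv⟩ := efull n x v
    exact ⟨fun u => j (n + 1) (f u), fun u a u' h => jmor _ _ _ _ (hf _ _ _ h),
      by simp only; rw [hv, jc]⟩
  have hlip : ∀ z a z', E z a z' → lev z' ≤ lev z + 1 := by
    intro z a z' h
    obtain ⟨x, hx⟩ := (lev_le z (lev z)).1 le_rfl
    generalize lev z = n at x hx ⊢
    subst hx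
    by_contra hlt
    obtain ⟨y', hy'⟩ := (lev_le z' (lev z')).1 le_rfl
    obtain ⟨m, hm⟩ : ∃ m, lev z' = m + 2 := ⟨lev z' - 2, by omega⟩
    have hnew : lev z' = m + 1 + 1 := by omega
    obtain ⟨y, hy⟩ := (lev_le z' (m + 1 + 1)).1 hnew.le
    subst hy
    obtain ⟨x1, hx1⟩ := rmono n m (by omega) x
    have h' : E (j (m + 1 + 1) y) (ι a) (j (m + 1 + 1) (e (m + 1) (e m x1))) := by
      rw [jc, jc, hx1]
      exact hsymm _ _ _ h
    obtain ⟨Y, u, v, hY, -, hv⟩ := anc_adj (jind _ _ _ _ h') ((lev_new _ _).2 hnew)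
    exact hY.notFull hΓ (good (m + 1)) hv (efull m x1 v)
  have lift : ∀ n (w : List Λ) x z', Path (Res E (lev · ≤ n)) (j n x) w z' →
      ∃ x', z' = j n x' ∧ Path (En n) x w x' := by
    intro n w
    induction w with
    | nil =>
      intro x z' h
      exact ⟨x, (path_nil_iff.1 h).symm, Path.nil _⟩
    | cons a w ih =>
      intro x z' h
      obtain ⟨z1, h1, h2⟩ := path_cons_iff.1 h
      obtain ⟨x1, rfl⟩ := (lev_le _ _).1 h1.2.2
      obtain ⟨x', e1, e2⟩ := ih _ _ h2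
      exact ⟨x', e1, Path.cons (jind _ _ _ _ h1.1) e2⟩
  have liftOut : ∀ n (w : List Λ) x z', Path (Res E (lev · = n + 1)) (j (n + 1) x) w z' →
      ∃ x', z' = j (n + 1) x' ∧ Path (Res (En (n + 1)) (· ∉ Set.range (e n))) x w x' := by
    intro n w
    induction w with
    | nil =>
      intro x z' h
      exact ⟨x, (path_nil_iff.1 h).symm, Path.nil _⟩
    | cons a w ih =>
      intro x z' h
      obtain ⟨z1, h1, h2⟩ := path_cons_iff.1 h
      obtain ⟨x1, rfl⟩ := (lev_le _ _).1 (le_of_eq h1.2.2)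
      obtain ⟨x', e1, e2⟩ := ih _ _ h2
      exact ⟨x', e1, Path.cons
        ⟨jind _ _ _ _ h1.1, (lev_new _ _).2 h1.2.1, (lev_new _ _).2 h1.2.2⟩ e2⟩
  have geoLift : ∀ n x (w : List Λ) x', Path (En n) x w x' → Geo E (j n x) w (j n x') →
      Geo (En n) x w x' := fun n x w x' h hg =>
    ⟨h, fun r hr => hg.2 r (hr.map _ (jmor n))⟩
  have bigM : ∀ (w : List Λ) z z', Path E z w z' → ∀ M, lev z + w.length ≤ M →
      Path (Res E (lev · ≤ M)) z w z' := by
    intro w z z' h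
    induction h with
    | nil x => exact fun _ _ => Path.nil _
    | cons h1 _ ih =>
      intro M hM
      have := hlip _ _ _ h1
      simp at hM
      exact Path.cons ⟨h1, by simp only; omega, by simp only; omega⟩ (ih M (by omega))
  have convStep : ∀ M (w : List Λ) z z', Geo E z w z' → Path (Res E (lev · ≤ M + 1)) z w z' →
      lev z ≤ M → lev z' ≤ M → Path (Res E (lev · ≤ M)) z w z' := by
    intro M w
    induction w with
    | nil =>
      intro z z' _ h _ _
      rw [path_nil_iff.1 h]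
      exact Path.nil _
    | cons a w ih =>
      intro z z' hg h hz hz'
      obtain ⟨z1, h1, h2⟩ := path_cons_iff.1 h
      by_cases hz1 : lev z1 ≤ M
      · exact Path.cons ⟨h1.1, hz, hz1⟩ (ih _ _ (hg.tail h1.1 h2.of_res) h2 hz1 hz')
      · exfalso
        obtain ⟨x, rfl⟩ := (lev_le _ _).1 hz
        obtain ⟨y1, rfl⟩ := (lev_le _ _).1 h1.2.2
        rw [← jc] at h hg
        obtain ⟨y', rfl, hp⟩ := lift _ _ _ _ h
        have hg' := geoLift _ _ _ _ hp hg
        have hn1 : y1 ∉ Set.range (e M) := (lev_new _ _).2 (by have := lev_j _ y1; omega)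
        have h1' : En (M + 1) (e M x) a y1 := jind _ _ _ _ (by rw [jc]; exact h1.1)
        have := (lev_new _ _).1 (geo_no_return hΓ (good M) h1' hn1 hg')
        omega
  have hconv : ∀ n z (w : List Λ) z', Geo E z w z' → lev z ≤ n → lev z' ≤ n →
      Path (Res E (lev · ≤ n)) z w z' := by
    intro n z w z' hg hz hz'
    have : ∀ k, Path (Res E (lev · ≤ n + k)) z w z' → Path (Res E (lev · ≤ n)) z w z' := by
      intro k
      induction k with
      | zero => exact id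
      | succ k ih => exact fun h => ih (convStep _ _ _ _ hg h (by omega) (by omega))
    exact this w.length (bigM _ _ _ hg.1 _ (by omega))
  let An : Z → Z → Prop := fun z x => ∃ n z0 x0, z = j (n + 1) z0 ∧ z0 ∉ Set.range (e n) ∧
    x = j n x0 ∧ Anc ι Γ P (En n) z0 x0
  have an_at : ∀ n z0 x, An (j (n + 1) z0) x → lev (j (n + 1) z0) = n + 1 →
      ∃ x0, x = j n x0 ∧ Anc ι Γ P (En n) z0 x0 := by
    rintro n z0 x ⟨m, z1, x1, e1, h1, rfl, h2⟩ hl
    have := (lev_new _ _).1 h1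
    rw [← e1, hl] at this
    obtain rfl : n = m := by omega
    rw [jinj _ e1]
    exact ⟨x1, rfl, h2⟩
  refine ⟨Z, E, j 0, lev, An, ⟨hsymm, hdet, hfull, hlip, hconv, ?_, ?_, ?_, ?_, ?_⟩, jinj 0,
    jmor 0, fun z => Nat.le_zero.symm.trans (lev_le z 0), ?_⟩
  · intro z a x h hlt
    have h1 := hlip _ _ _ (hsymm _ _ _ h)
    obtain ⟨n, hn⟩ : ∃ n, lev x = n := ⟨_, rfl⟩
    obtain ⟨x0, rfl⟩ := (lev_le x n).1 hn.le
    obtain ⟨z0, rfl⟩ := (lev_le z (n + 1)).1 (by omega)
    have hz0 : z0 ∉ Set.range (e n) := (lev_new _ _).2 (by omega)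
    exact ⟨n, z0, x0, rfl, hz0, rfl,
      anc_adj (jind _ _ _ _ (show E _ a (j (n + 1) (e n x0)) by rw [jc]; exact h)) hz0⟩
  · rintro z x ⟨n, z0, x0, rfl, h1, rfl, Y, u, v, hY, -, hv⟩
    rw [(lev_new _ _).1 h1, lev_nf n x0 ⟨v, hY.notFull hΓ (good n) hv⟩]
  · intro z a z' h hle hz
    obtain ⟨n, hn⟩ : ∃ n, lev z = n + 1 := ⟨lev z - 1, by omega⟩
    obtain ⟨z0, rfl⟩ := (lev_le z (n + 1)).1 hn.le
    obtain ⟨z1, rfl⟩ := (lev_le z' (n + 1)).1 (by omega)
    have hz0 : z0 ∉ Set.range (e n) := (lev_new _ _).2 hn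
    obtain ⟨Y, u, hY, hu⟩ := exists_cell_of_edge (jind _ _ _ _ h) hz0
    obtain ⟨x, v, hx⟩ := hY.nonempty
    exact ⟨j n x, n, z0, x, rfl, hz0, rfl, Y, u, v, hY, hu, hx⟩
  · intro n z w z' x x' hp hz hl h1 h2
    obtain ⟨z0, rfl⟩ := (lev_le z (n + 1)).1 hz.le
    obtain ⟨z1, rfl, hp'⟩ := liftOut _ _ _ _ hp
    obtain ⟨x0, rfl, a0⟩ := an_at _ _ _ h1 hz
    obtain ⟨x1, rfl, a1⟩ := an_at _ _ _ h2 (hp.res_end hz)
    obtain ⟨r, hr, hq⟩ := anc_close hΓ (good n) hp'
      (hl.imp id (geoLift _ _ _ _ hp'.of_res)) a0 a1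
    exact ⟨r, hr, hq.map (E' := Res E (lev · = n)) (j n) fun x a y h =>
      ⟨jmor _ _ _ _ h.1, lev_nf _ _ h.2.1, lev_nf _ _ h.2.2⟩⟩
  · intro n z w z' hp hg
    cases w with
    | nil => simp
    | cons a w =>
      obtain ⟨z2, h1, -⟩ := path_cons_iff.1 hp
      obtain ⟨z0, rfl⟩ := (lev_le z (n + 1)).1 (le_of_eq h1.2.1)
      obtain ⟨z1, rfl, hp'⟩ := liftOut _ _ _ _ hp
      exact geo_out_bdd hΓ (good n) hp' (geoLift _ _ _ _ hp'.of_res hg)
  · intro W EW φ hW hs hd hf hφ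
    have step : ∀ n (ψ : {ψ : X n → W // Mor (En n) EW ψ}),
        ∃ ψ' : {ψ : X (n + 1) → W // Mor (En (n + 1)) EW ψ}, ∀ x, ψ'.1 (e n x) = ψ.1 x := by
      intro n ψ
      obtain ⟨ψ', h1, h2⟩ := nxt_univ hΓ (good n) hs hd hf ψ.2
      exact ⟨⟨ψ', h1⟩, h2⟩
    choose nx hnx using step
    let ψ : ∀ n, {ψ : X n → W // Mor (En n) EW ψ} := fun n =>
      Nat.rec (motive := fun n => {ψ : X n → W // Mor (En n) EW ψ}) ⟨φ, hφ⟩ nx n
    have ψc : ∀ n x, (ψ (n + 1)).1 (e n x) = (ψ n).1 x := fun n x => hnx n (ψ n) x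
    have ψup : ∀ n m, n ≤ m → ∀ x, ∃ y, j m y = j n x ∧ (ψ m).1 y = (ψ n).1 x := by
      intro n m h x
      induction h with
      | refl => exact ⟨x, rfl, rfl⟩
      | step _ ih =>
        obtain ⟨y, hy, hy'⟩ := ih
        exact ⟨e _ y, by rw [jc, hy], by rw [ψc, hy']⟩
    have ψwd : ∀ n x m y, j n x = j m y → (ψ n).1 x = (ψ m).1 y := by
      intro n x m y h
      obtain ⟨x1, a1, a2⟩ := ψup n (max n m) (le_max_left _ _) x
      obtain ⟨y1, b1, b2⟩ := ψup m (max n m) (le_max_right _ _) y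
      rw [← a2, ← b2, jinj _ (a1.trans (h.trans b1.symm))]
    choose N xN hN using jsurj
    have key : ∀ n x, (ψ (N (j n x))).1 (xN (j n x)) = (ψ n).1 x :=
      fun n x => ψwd _ _ _ _ (hN _).symm
    refine ⟨fun z => (ψ (N z)).1 (xN z), ?_, fun x => key 0 x⟩
    rintro z a z' ⟨n, x, x', h, rfl, rfl⟩
    simp only
    rw [key, key]
    exact (ψ n).2 _ _ _ h

end

end Vale.Agent.P194
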