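import Vale.Agent.P194.Design
import Vale.Agent.P194.Limit

/-
A matrix over the group algebra with a right inverse which is not a left inverse.
-/

namespace Vale.Agent.P194

open Classical Finset

theorem theta_apply {K R M S V : Type} [Field K] [Ring R] [Algebra K R] [AddCommGroup M]
    [Module R M] [Module K M] [IsScalarTower K R M] [Fintype S] (u : S → R)
    (f : S × Bool → K) (t : S → K) {E : V → S × Bool → V → Prop} (hs : Symm flp E) (hd : Det E)
    (γ : V → S × Bool → K) (hγ : ∀ v s v', E v (s, true) v' → γ v' (s, false) = t s * γ v (s, true))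
    (U : Finset V) (hU : ∀ v ∈ U, ∀ a v', E v a v' → v' ∈ U) (μ : V → M)
    (hμ : ∀ v s v', E v (s, true) v' → μ v' = u s • μ v) :
    ∑ s, (f (s, true) • (1 : R) + (t s * f (s, false)) • u s) •
      (∑ v ∈ U, if ∃ v', E v (s, true) v' then γ v (s, true) • μ v else 0) =
    ∑ v ∈ U, (∑ a, if ∃ v', E v a v' then f a * γ v a else 0) • μ v := by
  have key : ∀ s, t s • u s • (∑ v ∈ U, if ∃ v', E v (s, true) v' then γ v (s, true) • μ v else 0) =
      ∑ v ∈ U, if ∃ v', E v (s, false) v' then γ v (s, false) • μ v else 0 := by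
    intro s
    rw [← Finset.sum_filter, ← Finset.sum_filter, Finset.smul_sum, Finset.smul_sum]
    refine Finset.sum_bij (fun v hv => (Finset.mem_filter.1 hv).2.choose) ?_ ?_ ?_ ?_
    · intro v hv
      have h := (Finset.mem_filter.1 hv).2.choose_spec
      exact Finset.mem_filter.2 ⟨hU v (Finset.mem_filter.1 hv).1 _ _ h, v, hs _ _ _ h⟩
    · intro v hv v' hv' e
      have h := hs _ _ _ (Finset.mem_filter.1 hv).2.choose_spec
      have h' := hs _ _ _ (Finset.mem_filter.1 hv').2.choose_spec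
      rw [e] at h
      exact hd _ _ _ _ h h'
    · intro v' hv'
      obtain ⟨h1, v, h2⟩ := Finset.mem_filter.1 hv'
      have h3 : E v (s, true) v' := hs _ _ _ h2
      have hv : v ∈ U.filter fun v => ∃ v', E v (s, true) v' :=
        Finset.mem_filter.2 ⟨hU _ h1 _ _ h2, v', h3⟩
      exact ⟨v, hv, hd _ _ _ _ (Finset.mem_filter.1 hv).2.choose_spec h3⟩
    · intro v hv
      have h := (Finset.mem_filter.1 hv).2.choose_spec
      rw [hγ _ _ _ h, hμ _ _ _ h, smul_comm (u s), mul_smul]
  simp only [add_smul, smul_assoc, one_smul, mul_comm (t _), mul_smul, key]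
  simp only [Fintype.sum_prod_type, Fintype.sum_bool, Finset.sum_smul, add_smul, Finset.smul_sum]
  rw [Finset.sum_comm (s := U)]
  refine Finset.sum_congr rfl fun s _ => ?_
  rw [← Finset.sum_add_distrib]
  refine Finset.sum_congr rfl fun v _ => ?_
  congr 1 <;> split_ifs <;> simp [mul_smul]

theorem exists_diam {V Λ : Type} [Finite V] (Γ : V → Λ → V → Prop) :
    ∃ D, ∀ u w u', Path Γ u w u' → ∃ w', w'.length ≤ D ∧ Path Γ u w' u' := by
  have : ∀ x : V × V, ∃ w' : List Λ, (∃ w, Path Γ x.1 w x.2) → Path Γ x.1 w' x.2 := by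
    intro x
    by_cases h : ∃ w, Path Γ x.1 w x.2
    · obtain ⟨w, hw⟩ := h
      exact ⟨w, fun _ => hw⟩
    · exact ⟨[], fun h' => absurd h' h⟩
  choose F hF using this
  obtain ⟨D, hD⟩ := (Set.finite_range fun x => (F x).length).bddAbove
  exact ⟨D, fun u w u' h => ⟨F (u, u'), hD ⟨(u, u'), rfl⟩, hF (u, u') ⟨w, h⟩⟩⟩

/-- The matrix of the construction. -/
noncomputable def theta {K S G : Type} [Field K] [Group G] (f : S → S × Bool → K) (t : S → K)
    (gl : S × Bool → G) : Matrix S S (MonoidAlgebra K G) :=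
  Matrix.of fun i s => f i (s, true) • (1 : MonoidAlgebra K G) +
    (t s * f i (s, false)) • MonoidAlgebra.of K G (gl (s, true))

section
variable {K S V C G : Type} [Field K] [Fintype S] [Finite V] [Finite C] [Group G] {g : ℕ}
  {Γ : V → S × Bool → V → Prop} {EC : C → S × Bool → C → Prop} {f : S → S × Bool → K}
  {t : S → K} {γ : V → S × Bool → K} {γC : C → K} {sp : S → V} {gl : S × Bool → G}

omit [Finite C] in
theorem theta_right_inv (hD : Design g Γ EC f t γ γC sp) (hfull : ∀ x v, Full Γ (Cay gl) x v) :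
    ∃ Ψ, theta f t gl * Ψ = 1 := by
  let M : Matrix S S K := Matrix.of fun i s => f i (s, true) + t s * f i (s, false)
  choose F hF hF1 using fun j => hfull 1 (sp j)
  let U : S → Finset V := fun j => (Set.toFinite {v | ∃ w, Path Γ (sp j) w v}).toFinset
  have hU : ∀ j v, v ∈ U j ↔ ∃ w, Path Γ (sp j) w v := fun j v => Set.Finite.mem_toFinset _
  let Ψ0 : Matrix S S (MonoidAlgebra K G) := Matrix.of fun s j => ∑ v ∈ U j,
    if ∃ v', Γ v (s, true) v' then γ v (s, true) • MonoidAlgebra.of K G (F j v) else 0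
  have h1 : theta f t gl * Ψ0 = M.map (algebraMap K (MonoidAlgebra K G)) := by
    ext1 i j
    have := theta_apply (R := MonoidAlgebra K G) (M := MonoidAlgebra K G)
      (fun s => MonoidAlgebra.of K G (gl (s, true))) (f i) t
      hD.symm hD.det γ hD.grade (U j) (by
        intro v hv a v' h
        obtain ⟨w, hw⟩ := (hU _ _).1 hv
        exact (hU _ _).2 ⟨_, hw.append (Path.single h)⟩)
      (fun v => MonoidAlgebra.of K G (F j v)) (by
        intro v s v' h
        rw [smul_eq_mul, ← map_mul]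
        exact congrArg _ (hF j _ _ _ h))
    simp only [smul_eq_mul] at this
    simp only [Matrix.mul_apply, theta, Ψ0, Matrix.of_apply]
    rw [this, Finset.sum_eq_single (sp j)]
    · rw [hD.spec, hF1, map_one, Matrix.map_apply, Algebra.algebraMap_eq_smul_one]
      rfl
    · intro v hv hne
      rw [hD.ord, zero_smul]
      rintro j' rfl
      obtain ⟨w, hw⟩ := (hU _ _).1 hv
      exact hne (by rw [hD.sep _ _ _ hw])
    · intro h
      exact absurd ((hU _ _).2 ⟨[], Path.nil _⟩) h
  have hM : M * M⁻¹ = 1 := Matrix.mul_nonsing_inv M (Ne.isUnit hD.unit)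
  refine ⟨Ψ0 * (M⁻¹).map (algebraMap K (MonoidAlgebra K G)), ?_⟩
  rw [← Matrix.mul_assoc, h1, ← Matrix.map_mul, hM]
  exact Matrix.map_one _ (map_zero _) (map_one _)

omit [Finite V] in
theorem theta_no_left_inv (hD : Design g Γ EC f t γ γC sp) {Z : Type}
    {E : Z → S × Bool → Z → Prop} (hd : Det E) {j0 : C → Z} (hinj : Function.Injective j0)
    (hmor : Mor EC E j0) (ρ : G →* Equiv.Perm Z) (hρ : ∀ z a, E z a (ρ (gl a) z))
    (Ψ : Matrix S S (MonoidAlgebra K G)) : Ψ * theta f t gl ≠ 1 := by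
  intro hΨ
  let UC : Finset C := (Set.toFinite (Set.univ : Set C)).toFinset
  have hUC : ∀ x, x ∈ UC := fun x => (Set.Finite.mem_toFinset _).2 (Set.mem_univ _)
  let _ : MulAction G Z := MulAction.compHom Z ρ
  let τ : MonoidAlgebra K G →ₐ[K] Module.End K (MonoidAlgebra K Z) :=
    (Representation.ofMulAction K G Z).asAlgebraHom
  let κ : S → MonoidAlgebra K Z := fun s => ∑ x ∈ UC,
    if ∃ x', EC x (s, true) x' then γC x • MonoidAlgebra.single (j0 x) (1 : K) else 0
  have hκ : ∀ i, ∑ s, τ (theta f t gl i s) • κ s = 0 := by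
    intro i
    have := theta_apply (R := Module.End K (MonoidAlgebra K Z)) (M := MonoidAlgebra K Z)
      (fun s => τ (MonoidAlgebra.of K G (gl (s, true)))) (f i) t hD.symmC hD.detC
      (fun x _ => γC x) hD.gradeC UC (fun _ _ _ _ _ => hUC _)
      (fun x => MonoidAlgebra.single (j0 x) (1 : K)) (by
        intro x s x' h
        have e : j0 x' = ρ (gl (s, true)) (j0 x) := hd _ _ _ _ (hmor _ _ _ h) (hρ _ _)
        simp only [τ, Representation.asAlgebraHom_of, Module.End.smul_def,
          Representation.ofMulAction_single]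
        rw [e]
        rfl)
    simp only [hD.ordC, zero_smul, Finset.sum_const_zero] at this
    rw [← this]
    refine Finset.sum_congr rfl fun s _ => ?_
    simp only [theta, Matrix.of_apply, map_add, map_smul, map_one, κ]
  have hκ0 : ∀ j, κ j = 0 := by
    intro j
    have e1 : ∑ i, τ (Ψ j i) • ∑ s, τ (theta f t gl i s) • κ s =
        ∑ s, τ ((Ψ * theta f t gl) j s) • κ s := by
      simp only [Finset.smul_sum, Matrix.mul_apply, map_sum, map_mul, Finset.sum_smul, mul_smul]
      exact Finset.sum_comm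
    simp only [hκ, smul_zero, Finset.sum_const_zero, hΨ] at e1
    rw [Finset.sum_eq_single j] at e1
    · simpa using e1.symm
    · intro s _ hs
      rw [Matrix.one_apply_ne' hs]
      simp
    · simp
  obtain ⟨x, s, x', hx⟩ := hD.exC
  have := congrArg (fun m : MonoidAlgebra K Z => m.coeff (j0 x)) (hκ0 s)
  simp only [κ, MonoidAlgebra.coeff_sum, Finsupp.finset_sum_apply, MonoidAlgebra.coeff_zero,
    Finsupp.zero_apply] at this
  rw [Finset.sum_eq_single x, if_pos ⟨x', hx⟩] at this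
  · simp at this
    exact hD.neC x this
  · intro y _ hy
    split_ifs
    · simp [Finsupp.single_apply, hinj.eq_iff, hy]
    · simp
  · exact fun h => absurd (hUC x) h

end

theorem Levels.total {Z Λ V : Type} {ι : Λ → Λ} {Γ : V → Λ → V → Prop} {P D : ℕ}
    {E : Z → Λ → Z → Prop} {lev : Z → ℕ} {An : Z → Z → Prop} (hL : Levels ι Γ P D E lev An)
    (hall : ∀ a, ∃ v v', Γ v a v') (z : Z) (a : Λ) : ∃ z', E z a z' := by
  obtain ⟨v, v', h⟩ := hall a
  obtain ⟨φ, hφ, rfl⟩ := hL.full z v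
  exact ⟨_, hφ _ _ _ h⟩

theorem main_matrix (p : ℕ) [Fact p.Prime] :
    ∃ (K : Type) (_ : Field K) (_ : Fintype K) (_ : CharP K p) (S V : Type) (_ : Fintype S)
      (Γ : V → S × Bool → V → Prop) (g D : ℕ) (G : Type) (_ : Group G) (gl : S × Bool → G),
      Good flp Γ 6 g D ∧ (∀ a, ∃ v v', Γ v a v') ∧ Group.IsFinitelyPresented G ∧
      (∀ a, gl (flp a) = (gl a)⁻¹) ∧ Subgroup.closure (Set.range gl) = ⊤ ∧
      (∀ x v, Full Γ (Cay gl) x v) ∧
      (∀ (Z : Type) (E : Z → S × Bool → Z → Prop), Symm flp E → Det E →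
        (∀ z a, ∃ z', E z a z') → (∀ z v, Full Γ E z v) →
        ∃ ρ : G →* Equiv.Perm Z, ∀ z a, E z a (ρ (gl a) z)) ∧
      ∃ Θ Ψ : Matrix S S (MonoidAlgebra K G), Θ * Ψ = 1 ∧ Ψ * Θ ≠ 1 := by
  obtain ⟨K, _, _, _, S, V, C, _, _, _, Γ, EC, f, t, γ, γC, sp, hD⟩ :=
    design_exists p 181 (by omega)
  obtain ⟨D, hdiam⟩ := exists_diam Γ
  have hΓ : Good flp Γ 6 181 D :=
    ⟨flp_flp, hD.symm, hD.det, hD.girth, hD.piece, by omega, by omega, hdiam⟩
  obtain ⟨G, _, gl, hfp, hinv, hcl, hfull, hact⟩ := group_exists Γ hD.symm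
  refine ⟨K, inferInstance, inferInstance, inferInstance, S, V, inferInstance, Γ, 181, D, G,
    inferInstance, gl, hΓ, hD.allLetters, hfp, hinv, hcl, hfull, hact, ?_⟩
  obtain ⟨Ψ, hΨ⟩ := theta_right_inv hD hfull
  obtain ⟨Z, E, j0, lev, An, hL, hinj, hmor, -, -⟩ := exists_limit hΓ (E0 := EC)
    ⟨hD.symmC, hD.detC, fun x v => Or.inr (hD.short x v)⟩
  obtain ⟨ρ, hρ⟩ := hact Z E hL.symm hL.det (hL.total hD.allLetters) hL.full
  exact ⟨_, Ψ, hΨ, theta_no_left_inv hD hL.det hinj hmor ρ hρ Ψ⟩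

end Vale.Agent.P194
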