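import Mathlib

/-
Labelled graphs given by a relation `E x a y` (an edge from `x` to `y` with letter `a`),
paths, reduced words, girth and pieces.
-/

namespace Vale.Agent.P194

/-- `Path E x w y`: the word `w` can be read along edges from `x` to `y`. -/
inductive Path {X Λ : Type} (E : X → Λ → X → Prop) : X → List Λ → X → Prop
  | nil (x : X) : Path E x [] x
  | cons {x y z : X} {a : Λ} {w : List Λ} : E x a y → Path E y w z → Path E x (a :: w) z

/-- Reduced words: no letter is followed by its inverse letter. -/
def Red {Λ : Type} (ι : Λ → Λ) (w : List Λ) : Prop := List.IsChain (fun a b => b ≠ ι a) w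

/-- The inverse word. -/
def winv {Λ : Type} (ι : Λ → Λ) (w : List Λ) : List Λ := (w.map ι).reverse

/-- Every edge can be traversed backwards with the inverse letter. -/
def Symm {X Λ : Type} (ι : Λ → Λ) (E : X → Λ → X → Prop) : Prop :=
  ∀ x a y, E x a y → E y (ι a) x

/-- At most one edge with a given letter leaves a vertex. -/
def Det {X Λ : Type} (E : X → Λ → X → Prop) : Prop :=
  ∀ x a y y', E x a y → E x a y' → y = y'

/-- No nonempty reduced closed path is shorter than `g`. -/
def Girth {X Λ : Type} (ι : Λ → Λ) (E : X → Λ → X → Prop) (g : ℕ) : Prop :=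
  ∀ x w, Red ι w → Path E x w x → w.length < g → w = []

/-- A reduced word longer than `P` can be read from at most one vertex. -/
def Piece {X Λ : Type} (ι : Λ → Λ) (E : X → Λ → X → Prop) (P : ℕ) : Prop :=
  ∀ w v v' u u', Red ι w → P < w.length → Path E v w u → Path E v' w u' → v = v'

section
variable {X Y Λ : Type} {ι : Λ → Λ} {E : X → Λ → X → Prop}

theorem path_nil_iff {x y : X} : Path E x [] y ↔ x = y := by
  constructor
  · intro h
    cases h
    rfl
  · rintro rfl
    exact Path.nil _

theorem path_cons_iff {x z : X} {a : Λ} {w : List Λ} :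
    Path E x (a :: w) z ↔ ∃ y, E x a y ∧ Path E y w z := by
  constructor
  · intro h
    cases h with
    | cons h1 h2 => exact ⟨_, h1, h2⟩
  · rintro ⟨y, h1, h2⟩
    exact Path.cons h1 h2

theorem Path.single {x y : X} {a : Λ} (h : E x a y) : Path E x [a] y :=
  Path.cons h (Path.nil _)

theorem Path.append {x y z : X} {w w' : List Λ} (h : Path E x w y) (h' : Path E y w' z) :
    Path E x (w ++ w') z := by
  induction h with
  | nil x => exact h'
  | cons h1 _ ih => exact Path.cons h1 (ih h')

theorem path_append_iff {x z : X} {w w' : List Λ} :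
    Path E x (w ++ w') z ↔ ∃ y, Path E x w y ∧ Path E y w' z := by
  constructor
  · intro h
    induction w generalizing x with
    | nil => exact ⟨x, Path.nil _, h⟩
    | cons a w ih =>
      obtain ⟨y, h1, h2⟩ := path_cons_iff.1 h
      obtain ⟨y', h3, h4⟩ := ih h2
      exact ⟨y', Path.cons h1 h3, h4⟩
  · rintro ⟨y, h1, h2⟩
    exact h1.append h2

theorem Path.det (hd : Det E) {x y y' : X} {w : List Λ} (h : Path E x w y) (h' : Path E x w y') :
    y = y' := by
  induction h with
  | nil x => exact (path_nil_iff.1 h')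
  | cons h1 _ ih =>
    obtain ⟨y2, h3, h4⟩ := path_cons_iff.1 h'
    rw [← hd _ _ _ _ h1 h3] at h4
    exact ih h4

theorem Path.map {E' : Y → Λ → Y → Prop} (f : X → Y) (hf : ∀ x a y, E x a y → E' (f x) a (f y))
    {x y : X} {w : List Λ} (h : Path E x w y) : Path E' (f x) w (f y) := by
  induction h with
  | nil x => exact Path.nil _
  | cons h1 _ ih => exact Path.cons (hf _ _ _ h1) ih

theorem Path.mono {E' : X → Λ → X → Prop} (hf : ∀ x a y, E x a y → E' x a y)
    {x y : X} {w : List Λ} (h : Path E x w y) : Path E' x w y :=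
  Path.map (f := id) hf h

@[simp] theorem winv_nil : winv ι [] = [] := rfl

@[simp] theorem winv_cons (a : Λ) (w : List Λ) : winv ι (a :: w) = winv ι w ++ [ι a] := by
  simp [winv]

@[simp] theorem winv_append (w w' : List Λ) : winv ι (w ++ w') = winv ι w' ++ winv ι w := by
  simp [winv]

@[simp] theorem length_winv (w : List Λ) : (winv ι w).length = w.length := by
  simp [winv]

theorem winv_winv (hι : ∀ a, ι (ι a) = a) (w : List Λ) : winv ι (winv ι w) = w := by
  induction w with
  | nil => rfl
  | cons a w ih => simp [ih, hι]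

theorem Path.inv (hs : Symm ι E) {x y : X} {w : List Λ} (h : Path E x w y) :
    Path E y (winv ι w) x := by
  induction h with
  | nil x => exact Path.nil _
  | cons h1 _ ih =>
    rw [winv_cons]
    exact ih.append (Path.single (hs _ _ _ h1))

@[simp] theorem red_nil : Red ι [] := List.isChain_nil

@[simp] theorem red_single (a : Λ) : Red ι [a] := List.isChain_singleton _

theorem red_cons_cons {a b : Λ} {w : List Λ} :
    Red ι (a :: b :: w) ↔ b ≠ ι a ∧ Red ι (b :: w) := List.isChain_cons_cons

theorem Red.tail {a : Λ} {w : List Λ} (h : Red ι (a :: w)) : Red ι w := by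
  cases w with
  | nil => exact red_nil
  | cons b w => exact (red_cons_cons.1 h).2

theorem red_cons_iff {a : Λ} {w : List Λ} :
    Red ι (a :: w) ↔ (∀ b ∈ w.head?, b ≠ ι a) ∧ Red ι w := List.isChain_cons

theorem red_append_iff {w w' : List Λ} :
    Red ι (w ++ w') ↔ Red ι w ∧ Red ι w' ∧ ∀ a ∈ w.getLast?, ∀ b ∈ w'.head?, b ≠ ι a :=
  List.isChain_append

theorem Red.left {w w' : List Λ} (h : Red ι (w ++ w')) : Red ι w := (red_append_iff.1 h).1

theorem Red.right {w w' : List Λ} (h : Red ι (w ++ w')) : Red ι w' := (red_append_iff.1 h).2.1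

theorem Red.winv (hι : ∀ a, ι (ι a) = a) {w : List Λ} (h : Red ι w) : Red ι (winv ι w) := by
  unfold Red P194.winv at *
  rw [List.isChain_reverse, List.isChain_map]
  refine h.imp ?_
  intro a b hab h'
  apply hab
  rw [h', hι]

theorem getLast?_winv (w : List Λ) : (winv ι w).getLast? = w.head?.map ι := by
  simp [winv]

theorem head?_winv (w : List Λ) : (winv ι w).head? = w.getLast?.map ι := by
  simp [winv]

/-- Every path can be replaced by a reduced one which is not longer. -/
theorem Path.exists_red (hs : Symm ι E) (hd : Det E) {x y : X} {w : List Λ} (h : Path E x w y) :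
    ∃ w', Red ι w' ∧ w'.length ≤ w.length ∧ Path E x w' y := by
  induction h with
  | nil x => exact ⟨[], red_nil, le_rfl, Path.nil _⟩
  | @cons x y z a w h1 _ ih =>
    obtain ⟨w', hr, hl, hp⟩ := ih
    cases w' with
    | nil => exact ⟨[a], red_single _, by simp, Path.cons h1 hp⟩
    | cons b w'' =>
      by_cases hb : b = ι a
      · obtain ⟨y', h2, h3⟩ := path_cons_iff.1 hp
        rw [hb] at h2
        have : y' = x := hd _ _ _ _ h2 (hs _ _ _ h1)
        rw [this] at h3
        refine ⟨w'', hr.tail, ?_, h3⟩
        simp at hl ⊢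
        omega
      · refine ⟨a :: b :: w'', red_cons_cons.2 ⟨hb, hr⟩, ?_, Path.cons h1 hp⟩
        simpa using hl

/-- Two short reduced paths with the same end points coincide. -/
theorem Girth.eq_of_paths (hι : ∀ a, ι (ι a) = a) (hs : Symm ι E) (hd : Det E) {g : ℕ}
    (hg : Girth ι E g) {x y : X} {w w' : List Λ} (hw : Red ι w) (hw' : Red ι w')
    (h : Path E x w y) (h' : Path E x w' y) (hl : w.length + w'.length < g) : w = w' := by
  induction w generalizing x w' with
  | nil =>
    rw [← path_nil_iff.1 h] at h'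
    exact (hg _ _ hw' h' (by simpa using hl)).symm
  | cons a w ih =>
    cases w' with
    | nil =>
      rw [← path_nil_iff.1 h'] at h
      exact hg _ _ hw h (by simpa using hl)
    | cons b w' =>
      by_cases hab : a = b
      · subst hab
        obtain ⟨y1, h1, h2⟩ := path_cons_iff.1 h
        obtain ⟨y2, h3, h4⟩ := path_cons_iff.1 h'
        rw [← hd _ _ _ _ h1 h3] at h4
        rw [ih hw.tail hw'.tail h2 h4 (by simp at hl; omega)]
      · exfalso
        have hc : Path E y (winv ι (a :: w) ++ (b :: w')) y := (h.inv hs).append h'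
        have hr : Red ι (winv ι (a :: w) ++ (b :: w')) := by
          refine red_append_iff.2 ⟨hw.winv hι, hw', ?_⟩
          intro c hc' e he
          rw [getLast?_winv] at hc'
          simp at hc' he
          rw [← hc', ← he, hι]
          exact fun h => hab h.symm
        have := hg _ _ hr hc (by simp at hl ⊢; omega)
        simp at this

/-- The product graph. -/
def Prod2 (E : X → Λ → X → Prop) (E' : Y → Λ → Y → Prop) : X × Y → Λ → X × Y → Prop :=
  fun p a q => E p.1 a q.1 ∧ E' p.2 a q.2

theorem path_prod2_iff {E' : Y → Λ → Y → Prop} {p q : X × Y} {w : List Λ} :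
    Path (Prod2 E E') p w q ↔ Path E p.1 w q.1 ∧ Path E' p.2 w q.2 := by
  constructor
  · intro h
    exact ⟨h.map (E' := E) Prod.fst (fun _ _ _ h => h.1),
      h.map (E' := E') Prod.snd (fun _ _ _ h => h.2)⟩
  · rintro ⟨h1, h2⟩
    induction w generalizing p with
    | nil =>
      have e1 := path_nil_iff.1 h1
      have e2 := path_nil_iff.1 h2
      have : p = q := Prod.ext e1 e2
      rw [this]
      exact Path.nil _
    | cons a w ih =>
      obtain ⟨y1, h3, h4⟩ := path_cons_iff.1 h1
      obtain ⟨y2, h5, h6⟩ := path_cons_iff.1 h2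
      exact Path.cons (y := (y1, y2)) ⟨h3, h5⟩ (ih h4 h6)

theorem Symm.prod2 {E' : Y → Λ → Y → Prop} (h : Symm ι E) (h' : Symm ι E') :
    Symm ι (Prod2 E E') := fun _ _ _ hh => ⟨h _ _ _ hh.1, h' _ _ _ hh.2⟩

theorem Det.prod2 {E' : Y → Λ → Y → Prop} (h : Det E) (h' : Det E') :
    Det (Prod2 E E') := fun _ _ _ _ h1 h2 =>
  Prod.ext (h _ _ _ _ h1.1 h2.1) (h' _ _ _ _ h1.2 h2.2)

end

end Vale.Agent.P194
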