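import Mathlib

/-
The lifted parity check code on the lines of an affine space over a large finite field has
rate at least one half; consequences.
-/

namespace Vale.Agent.P194

open Classical Finset

section
variable {K : Type} [Field K] [Fintype K]

theorem sum_line_low {σ : Type} [Fintype σ] (e : σ → ℕ) (he : ∑ i, e i < Fintype.card K - 1)
    (a δ : σ → K) : ∑ t : K, ∏ i, (a i + t * δ i) ^ e i = 0 := by
  let F : Polynomial K := ∏ i, (Polynomial.C (a i) + Polynomial.X * Polynomial.C (δ i)) ^ e i
  have hF : F.natDegree < Fintype.card K - 1 := by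
    refine lt_of_le_of_lt ?_ he
    refine (Polynomial.natDegree_prod_le _ _).trans (Finset.sum_le_sum fun i _ => ?_)
    refine Polynomial.natDegree_pow_le.trans ?_
    have : (Polynomial.C (a i) + Polynomial.X * Polynomial.C (δ i)).natDegree ≤ 1 := by
      compute_degree
    calc _ ≤ e i * 1 := Nat.mul_le_mul_left _ this
      _ = e i := mul_one _
  have h1 : ∀ t : K, ∏ i, (a i + t * δ i) ^ e i = F.eval t := by
    intro t
    simp only [F, Polynomial.eval_prod, Polynomial.eval_pow, Polynomial.eval_add,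
      Polynomial.eval_mul, Polynomial.eval_C, Polynomial.eval_X]
  simp_rw [h1, Polynomial.eval_eq_sum_range' hF]
  rw [Finset.sum_comm]
  refine Finset.sum_eq_zero fun i hi => ?_
  rw [← Finset.mul_sum, FiniteField.sum_pow_lt_card_sub_one K i (Finset.mem_range.1 hi), mul_zero]

theorem sum_line_good {σ : Type} [Fintype σ] (p : ℕ) [Fact p.Prime] [CharP K p] (w J : ℕ)
    (hq : Fintype.card K = (p ^ w) ^ J) (hσ : Fintype.card σ ≤ p ^ w) (h2 : 2 ≤ p ^ w)
    (e : σ → ℕ) (he : ∀ i, e i < (p ^ w) ^ J) (c : ℕ) (hc : c < J)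
    (h0 : ∀ i, e i / (p ^ w) ^ c % p ^ w = 0) (a δ : σ → K) :
    ∑ t : K, ∏ i, (a i + t * δ i) ^ e i = 0 := by
  obtain ⟨k, rfl⟩ : ∃ k, J = c + 1 + k := ⟨J - (c + 1), by omega⟩
  set Q := p ^ w with hQ
  have hQpos : 0 < Q := by omega
  let e' : σ → ℕ := fun i => e i % Q ^ c * Q ^ k + e i / Q ^ c / Q
  have hdec : ∀ i, e i = e i % Q ^ c + Q ^ (c + 1) * (e i / Q ^ c / Q) := by
    intro i
    have h1 := Nat.mod_add_div (e i) (Q ^ c)
    have h3 := Nat.mod_add_div (e i / Q ^ c) Q
    rw [h0 i, zero_add] at h3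
    rw [pow_succ, mul_assoc, h3, h1]
  have hb : ∀ i, e' i + 1 ≤ Q ^ (c + k) := by
    intro i
    have h1 : e i % Q ^ c < Q ^ c := Nat.mod_lt _ (pow_pos hQpos _)
    have h3 : e i / Q ^ c / Q < Q ^ k := by
      rw [Nat.div_div_eq_div_mul, Nat.div_lt_iff_lt_mul (by positivity)]
      calc e i < Q ^ (c + 1 + k) := he i
        _ = Q ^ k * (Q ^ c * Q) := by ring
    calc e' i + 1 ≤ e i % Q ^ c * Q ^ k + Q ^ k := by
          simp only [e']
          omega
      _ = (e i % Q ^ c + 1) * Q ^ k := by ring
      _ ≤ Q ^ c * Q ^ k := Nat.mul_le_mul_right _ h1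
      _ = Q ^ (c + k) := by ring
  have hsum : ∑ i, e' i < Fintype.card K - 1 := by
    have h1 : ∑ i, (e' i + 1) ≤ Fintype.card σ * Q ^ (c + k) := by
      calc ∑ i, (e' i + 1) ≤ ∑ _i : σ, Q ^ (c + k) := Finset.sum_le_sum fun i _ => hb i
        _ = _ := by simp
    rw [Finset.sum_add_distrib] at h1
    simp only [sum_const, card_univ, smul_eq_mul, mul_one] at h1
    have h3 : 1 ≤ Q ^ (c + k) := Nat.one_le_pow _ _ hQpos
    have h4 : Fintype.card K = Q * Q ^ (c + k) := by rw [hq]; ring
    obtain ⟨r, hr⟩ : ∃ r, Q = Fintype.card σ + r := ⟨Q - Fintype.card σ, by omega⟩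
    generalize Q ^ (c + k) = R at *
    have h5 : r * 1 ≤ r * R := Nat.mul_le_mul_left _ h3
    have h6 : Q * R = Fintype.card σ * R + r * R := by rw [hr]; ring
    omega
  have key : ∀ (z : K) (i : σ), (z ^ e i) ^ p ^ (w * k) = z ^ e' i := by
    intro z i
    have h1 : e i * p ^ (w * k) = e i % Q ^ c * Q ^ k + Fintype.card K * (e i / Q ^ c / Q) := by
      rw [pow_mul, ← hQ, hq]
      conv_lhs => rw [hdec i]
      ring
    rw [← pow_mul, h1, pow_add, pow_mul z (Fintype.card K), FiniteField.pow_card, ← pow_add]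
  have : (∑ t : K, ∏ i, (a i + t * δ i) ^ e i) ^ p ^ (w * k) = 0 := by
    rw [sum_pow_char_pow]
    simp_rw [← Finset.prod_pow, key]
    exact sum_line_low e' hsum a δ
  exact pow_eq_zero_iff (pow_pos (Fact.out : p.Prime).pos _).ne' |>.1 this

theorem monomials_indep {σ : Type} [Fintype σ] {N : ℕ} (hN : N ≤ Fintype.card K) :
    LinearIndependent K (fun (e : σ → Fin N) (x : σ → K) => ∏ i, x i ^ (e i : ℕ)) := by
  rw [Fintype.linearIndependent_iff]
  intro c hc e0
  let d : (σ → Fin N) → (σ →₀ ℕ) := fun e => Finsupp.equivFunOnFinite.symm fun i => (e i : ℕ)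
  have hd : Function.Injective d := by
    intro e e' h
    funext i
    have := congrArg (fun f : σ →₀ ℕ => f i) h
    simpa [d, Fin.ext_iff] using this
  let F : MvPolynomial σ K := ∑ e, MvPolynomial.monomial (d e) (c e)
  have hF : F = 0 := by
    refine MvPolynomial.eq_zero_of_eval_zero_at_prod_finset F (fun _ => Finset.univ) ?_ ?_
    · intro i
      rw [MvPolynomial.degreeOf_lt_iff (by simp [Fintype.card_pos])]
      intro m hm
      obtain ⟨e, -, he⟩ := Finset.mem_biUnion.1 (MvPolynomial.support_sum hm)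
      have := MvPolynomial.support_monomial_subset he
      rw [Finset.mem_singleton.1 this]
      simp only [d, Finsupp.equivFunOnFinite_symm_apply_apply, card_univ]
      exact lt_of_lt_of_le (e i).2 hN
    · intro x _
      have := congrFun hc x
      simp only [Finset.sum_apply, Pi.smul_apply, smul_eq_mul, Pi.zero_apply] at this
      rw [← this]
      simp only [F, map_sum, MvPolynomial.eval_monomial]
      refine Finset.sum_congr rfl fun e _ => ?_
      rw [Finsupp.prod_fintype _ _ (by simp)]
      simp [d]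
  have := congrArg (MvPolynomial.coeff (d e0)) hF
  simp only [F, MvPolynomial.coeff_sum, MvPolynomial.coeff_monomial, hd.eq_iff] at this
  simpa using this

omit [Fintype K] in
theorem exists_twist {S : Type} [Fintype S] (A B : Matrix S S K) (hA : A.det ≠ 0) (α β : K)
    (hαβ : α ≠ β) : ∃ t : S → K, (∀ s, t s = α ∨ t s = β) ∧
      (Matrix.of fun i s => A i s + t s * B i s).det ≠ 0 := by
  have : ∀ U : Finset S, ∃ t : S → K, (∀ s ∈ U, t s = α ∨ t s = β) ∧
      (Matrix.of fun i s => A i s + t s * B i s).det ≠ 0 := by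
    intro U
    induction U using Finset.induction_on with
    | empty =>
      refine ⟨fun _ => 0, by simp, ?_⟩
      have : (Matrix.of fun i s => A i s + (fun _ => (0 : K)) s * B i s) = A := by
        ext i j
        simp
      rw [this]
      exact hA
    | insert s U hs ih =>
      obtain ⟨t, ht, hdet⟩ := ih
      let M : Matrix S S K := Matrix.of fun i s => A i s + t s * B i s
      have key : ∀ τ : K, (Matrix.of fun i s' => A i s' + Function.update t s τ s' * B i s').det =
          (M.updateCol s fun i => A i s).det + τ * (M.updateCol s fun i => B i s).det := by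
        intro τ
        rw [← Matrix.det_updateCol_smul, ← Matrix.det_updateCol_add]
        congr 1
        ext i j
        by_cases hj : j = s
        · subst hj
          simp
        · simp [M, Matrix.updateCol_ne hj, Function.update_of_ne hj]
      have h0 := key (t s)
      rw [Function.update_eq_self] at h0
      have upd : ∀ τ, (τ = α ∨ τ = β) → ∀ s' ∈ insert s U,
          Function.update t s τ s' = α ∨ Function.update t s τ s' = β := by
        intro τ hτ s' hs'
        by_cases h : s' = s
        · subst h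
          simpa using hτ
        · rw [Function.update_of_ne h]
          exact ht _ ((Finset.mem_insert.1 hs').resolve_left h)
      by_cases h1 : (Matrix.of fun i s' => A i s' + Function.update t s α s' * B i s').det = 0
      · refine ⟨Function.update t s β, upd β (Or.inr rfl), fun h2 => hdet ?_⟩
        rw [key] at h1 h2
        rw [h0]
        have h3 : (α - β) * (M.updateCol s fun i => B i s).det = 0 := by
          linear_combination h1 - h2
        have h4 := (mul_eq_zero.1 h3).resolve_left (sub_ne_zero.2 hαβ)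
        rw [h4] at h1 ⊢
        simpa using h1
      · exact ⟨Function.update t s α, upd α (Or.inl rfl), h1⟩
  obtain ⟨t, ht, h⟩ := this Finset.univ
  exact ⟨t, fun s => ht s (Finset.mem_univ _), h⟩

theorem exists_info_set {S Λ : Type} [Fintype S] [Fintype Λ]
    (hcard : Fintype.card Λ = 2 * Fintype.card S) (hK : 4 ≤ Fintype.card K) (f : S → Λ → K)
    (hf : LinearIndependent K f) : ∃ (e : S × Bool ≃ Λ) (t : S → K), (∀ s, t s ≠ 0 ∧ t s ≠ 1) ∧
      (Matrix.of fun i s => f i (e (s, true)) + t s * f i (e (s, false))).det ≠ 0 := by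
  let M : Matrix S Λ K := Matrix.of f
  have hr : M.rank = Fintype.card S := LinearIndependent.rank_matrix (M := M) hf
  rw [Matrix.rank_eq_finrank_span_cols] at hr
  obtain ⟨κ, a, ha, hsp, hli⟩ := exists_linearIndependent' K M.col
  have : Finite κ := Finite.of_injective a ha
  have := Fintype.ofFinite κ
  have hκ : Fintype.card κ = Fintype.card S := by
    rw [linearIndependent_iff_card_eq_finrank_span.1 hli, Set.finrank, hsp, hr]
  obtain ⟨φ⟩ : Nonempty (S ≃ κ) := Fintype.card_eq.1 hκ.symm
  have hne : Nonempty (S × Bool ≃ Λ) := Fintype.card_eq.1 (by simp [hcard, mul_comm])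
  obtain ⟨e, he⟩ := Cardinal.extend_function_finite (s := {x : S × Bool | x.2 = true})
    ⟨fun x => a (φ x.1.1), by
      rintro ⟨⟨s, b⟩, hb⟩ ⟨⟨s', b'⟩, hb'⟩ h
      have h1 : s = s' := φ.injective (ha h)
      simp only [Set.mem_ofPred_eq] at hb hb'
      subst h1 hb hb'
      rfl⟩ hne
  have he' : ∀ s, e (s, true) = a (φ s) := fun s => he ⟨(s, true), rfl⟩
  let A : Matrix S S K := Matrix.of fun i s => f i (e (s, true))
  have hA : A.det ≠ 0 := by
    have : LinearIndependent K A.col := by
      have h1 := hli.comp φ φ.injective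
      have h2 : A.col = (M.col ∘ a) ∘ φ := by
        funext s i
        simp [A, M, he']
      rw [h2]
      exact h1
    exact ((Matrix.isUnit_iff_isUnit_det A).1
      (Matrix.linearIndependent_cols_iff_isUnit.1 this)).ne_zero
  obtain ⟨α, β, hα, hβ, hαβ⟩ : ∃ α β : K, α ∈ (Finset.univ \ {0, 1} : Finset K) ∧
      β ∈ (Finset.univ \ {0, 1} : Finset K) ∧ α ≠ β := by
    rw [← Finset.one_lt_card_iff]
    have h1 := Finset.le_card_sdiff ({0, 1} : Finset K) Finset.univ
    have h2 : ({0, 1} : Finset K).card ≤ 2 := Finset.card_le_two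
    simp only [card_univ] at h1
    omega
  obtain ⟨t, ht, hdet⟩ := exists_twist A (Matrix.of fun i s => f i (e (s, false))) hA α β hαβ
  refine ⟨e, t, fun s => ?_, hdet⟩
  simp at hα hβ
  rcases ht s with h | h <;> rw [h] <;> assumption

end

theorem two_mul_pow_le (M : ℕ) (hM : 1 ≤ M) : 2 * M ^ M ≤ (M + 1) ^ M := by
  have h0 : (0 : ℝ) < M := by exact_mod_cast hM
  have h1 := one_add_mul_le_pow (a := (1 / M : ℝ)) (by
    have : (0 : ℝ) ≤ 1 / M := by positivity
    linarith) M
  have h2 : (M : ℝ) * (1 / M) = 1 := by field_simp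
  rw [h2] at h1
  have h3 : ((M : ℝ) + 1) ^ M = (M : ℝ) ^ M * (1 + 1 / M) ^ M := by
    rw [← mul_pow]
    congr 1
    field_simp
  have h4 : (2 : ℝ) * (M : ℝ) ^ M ≤ ((M : ℝ) + 1) ^ M := by
    rw [h3]
    have : (0 : ℝ) < (M : ℝ) ^ M := by positivity
    nlinarith
  exact_mod_cast h4

theorem net_exists (p : ℕ) [Fact p.Prime] (m : ℕ) :
    ∃ (K : Type) (_ : Field K) (_ : Fintype K) (_ : CharP K p) (S B : Type) (_ : Fintype S)
      (_ : Finite B) (π : (Fin m → K) → S × Bool → B) (f : S → S × Bool → K) (t : S → K),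
      4 ≤ Fintype.card K ∧ Fintype.card S = Fintype.card K ^ (m + 1) ∧
      (∀ y b, {a | π y a = b}.ncard ≤ Fintype.card K) ∧
      (∀ y y' a a', a ≠ a' → π y a = π y a' → π y' a = π y' a' → y = y') ∧
      (∀ i y b, ∑ a, (if π y a = b then f i a else 0) = 0) ∧
      (∀ s, t s ≠ 0 ∧ t s ≠ 1) ∧
      ∀ [DecidableEq S],
        (Matrix.of fun i s => f i (s, true) + t s * f i (s, false)).det ≠ 0 := by
  have hp2 : 2 ≤ p := (Fact.out : p.Prime).two_le
  obtain ⟨Q, hQ⟩ : ∃ Q, Q = p ^ (m + 2) := ⟨_, rfl⟩
  have hQm : m + 2 < Q := by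
    rw [hQ]
    exact Nat.lt_pow_self (by omega)
  have hQ4 : 4 ≤ Q := by
    rw [hQ]
    calc 4 = 2 ^ 2 := by norm_num
      _ ≤ p ^ 2 := Nat.pow_le_pow_left hp2 _
      _ ≤ p ^ (m + 2) := Nat.pow_le_pow_right (by omega) (by omega)
  obtain ⟨J, hJ⟩ : ∃ J, Q ^ (m + 1) = J + 1 := ⟨Q ^ (m + 1) - 1, by
    have : 1 ≤ Q ^ (m + 1) := Nat.one_le_pow _ _ (by omega)
    omega⟩
  have hJ1 : 1 ≤ J := by
    have : Q ^ 1 ≤ Q ^ (m + 1) := Nat.pow_le_pow_right (by omega) (by omega)
    rw [pow_one] at this
    omega
  let K := GaloisField p ((m + 2) * J)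
  let _ : Fintype K := Fintype.ofFinite K
  have hq : Fintype.card K = Q ^ J := by
    rw [← Nat.card_eq_fintype_card, GaloisField.card p _ (by positivity), hQ, pow_mul]
  have hK4 : 4 ≤ Fintype.card K := by
    rw [hq]
    calc 4 ≤ Q ^ 1 := by simpa using hQ4
      _ ≤ Q ^ J := Nat.pow_le_pow_right (by omega) hJ1
  let σ := Option (Fin m)
  have hσ : Fintype.card σ = m + 1 := by simp [σ]
  let Pt := σ → K
  have hPt : Fintype.card Pt = Fintype.card K ^ (m + 1) := by simp [Pt, hσ]
  let Good : (σ → Fin (Q ^ J)) → Prop := fun e => ∃ c : Fin J, ∀ i, (e i : ℕ) / Q ^ (c : ℕ) % Q = 0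
  have hcount : Fintype.card Pt ≤ Fintype.card ({e // Good e} × Bool) := by
    have : NeZero Q := ⟨by omega⟩
    have hbad : Fintype.card {e // ¬ Good e} ≤ J ^ J := by
      have h1 : Fintype.card (Fin J → {v : σ → Fin Q // v ≠ 0}) = J ^ J := by
        simp [Fintype.card_subtype_compl, hσ, hJ]
      rw [← h1]
      refine Fintype.card_le_of_injective
        (fun e c => ⟨fun i => finFunctionFinEquiv.symm (e.1 i) c, fun h => e.2 ⟨c, fun i => ?_⟩⟩) ?_
      · exact congrArg Fin.val (congrFun h i)
      · intro e e' h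
        ext1
        funext i
        apply finFunctionFinEquiv.symm.injective
        funext c
        exact congrFun (congrArg Subtype.val (congrFun h c)) i
    have htot : Fintype.card (σ → Fin (Q ^ J)) = (J + 1) ^ J := by
      simp only [Fintype.card_pi, Fintype.card_fin, prod_const, card_univ, hσ]
      rw [← hJ, ← pow_mul, ← pow_mul, mul_comm]
    have h2 := two_mul_pow_le J hJ1
    have h3 := Fintype.card_subtype_compl Good
    have h4 := Fintype.card_subtype_le Good
    have h5 : Fintype.card Pt = (J + 1) ^ J := by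
      rw [hPt, hq, ← hJ, ← pow_mul, ← pow_mul, mul_comm]
    simp only [Fintype.card_prod, Fintype.card_bool]
    omega
  obtain ⟨u⟩ := Function.Embedding.nonempty_of_card_le hcount
  let F : {e // Good e} × Bool → Pt × Bool → K := fun eb xb =>
    if xb.2 = eb.2 then ∏ i, xb.1 i ^ (eb.1.1 i : ℕ) else 0
  have hF : LinearIndependent K F := by
    have hm := (monomials_indep (K := K) (σ := σ) hq.ge).comp (Subtype.val : {e // Good e} → _)
      Subtype.val_injective
    rw [Fintype.linearIndependent_iff] at hm ⊢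
    rintro c hc ⟨e, b⟩
    refine hm (fun e => c (e, b)) ?_ e
    funext x
    have := congrFun hc (x, b)
    simp only [Finset.sum_apply, Pi.smul_apply, smul_eq_mul, Pi.zero_apply, F,
      Fintype.sum_prod_type, mul_ite, mul_zero, sum_ite_eq, mem_univ, if_true] at this
    simpa using this
  obtain ⟨e, t, ht, hdet⟩ := exists_info_set (K := K) (S := Pt) (Λ := Pt × Bool)
    (by simp [mul_comm]) hK4 (F ∘ u) (hF.comp u u.injective)
  let π0 : (Fin m → K) → Pt × Bool → (Fin m → K) × Bool := fun y xb =>
    (fun i => xb.1 (some i) - xb.1 none * y i, xb.2)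
  let pt : (Fin m → K) → (Fin m → K) × Bool → K → Pt × Bool := fun y b τ =>
    (fun i => Option.elim i 0 b.1 + τ * Option.elim i 1 y, b.2)
  have hpt : ∀ y b xb, π0 y xb = b ↔ xb = pt y b (xb.1 none) := by
    rintro y ⟨b, β⟩ ⟨x, β'⟩
    simp only [π0, pt, Prod.mk.injEq]
    refine and_congr_left fun _ => ?_
    constructor
    · rintro rfl
      funext i
      cases i <;> simp
    · intro h
      funext i
      have := congrFun h (some i)
      simp at this
      rw [this]
      ring
  have hpt0 : ∀ y b τ, (pt y b τ).1 none = τ := by simp [pt]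
  refine ⟨K, inferInstance, inferInstance, inferInstance, Pt, (Fin m → K) × Bool, inferInstance,
    inferInstance, fun y a => π0 y (e a), fun i a => F (u i) (e a), t, hK4, hPt, ?_, ?_, ?_, ht,
    ?_⟩
  · intro y b
    rw [← Nat.card_eq_fintype_card, ← Set.ncard_univ]
    refine Set.ncard_le_ncard_of_injOn (fun a => (e a).1 none) (fun _ _ => Set.mem_univ _) ?_
      (Set.toFinite _)
    intro a ha a' ha' h
    apply e.injective
    rw [(hpt _ _ _).1 ha, (hpt _ _ _).1 ha']
    exact congrArg _ h
  · intro y y' a a' hne h1 h2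
    have hτ : (e a).1 none ≠ (e a').1 none := by
      intro h
      apply hne
      apply e.injective
      rw [(hpt _ _ _).1 h1, h]
      exact ((hpt _ _ _).1 rfl).symm
    funext i
    have g1 := congrFun (congrArg Prod.fst h1) i
    have g2 := congrFun (congrArg Prod.fst h2) i
    simp only [π0] at g1 g2
    have : ((e a).1 none - (e a').1 none) * (y i - y' i) = 0 := by linear_combination g2 - g1
    exact sub_eq_zero.1 ((mul_eq_zero.1 this).resolve_left (sub_ne_zero.2 hτ))
  · intro i y b
    have h1 : ∑ a, (if π0 y (e a) = b then F (u i) (e a) else 0) =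
        ∑ xb, (if π0 y xb = b then F (u i) xb else 0) :=
      Equiv.sum_comp e (fun xb => if π0 y xb = b then F (u i) xb else 0)
    have h2 : ∑ xb, (if π0 y xb = b then F (u i) xb else 0) = ∑ τ : K, F (u i) (pt y b τ) := by
      rw [← Finset.sum_filter]
      symm
      refine Finset.sum_bij' (fun τ _ => pt y b τ) (fun xb _ => xb.1 none) ?_ ?_ ?_ ?_ ?_
      · intro τ _
        simp only [mem_filter, mem_univ, true_and]
        rw [hpt, hpt0]
      · intro _ _
        exact mem_univ _
      · intro τ _
        exact hpt0 _ _ _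
      · intro xb hxb
        simp only [mem_filter, mem_univ, true_and] at hxb
        exact ((hpt _ _ _).1 hxb).symm
      · intro _ _
        rfl
    have h3 : ∑ τ : K, F (u i) (pt y b τ) = 0 := by
      by_cases hb : b.2 = (u i).2
      · simp only [F, pt, hb, if_true]
        obtain ⟨c, hc⟩ := (u i).1.2
        subst hQ
        exact sum_line_good p (m + 2) J hq (by omega) (by omega) _ (fun j => ((u i).1.1 j).2) c
          c.2 hc _ _
      · simp [F, pt, hb]
    convert h1.trans (h2.trans h3)
  · intro inst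
    have : inst = fun a b => Classical.propDecidable (a = b) := Subsingleton.elim _ _
    subst this
    exact hdet

end Vale.Agent.P194
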