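import Vale.Agent.P194.Group
import Vale.Agent.P194.Sachs
import Vale.Agent.P194.Code

/-
The relator graph and the kernel graph.
-/

namespace Vale.Agent.P194

open Classical Finset

/-- The data produced by the design. -/
structure Design {K S V C : Type} [Field K] [Fintype S] (g : ℕ)
    (Γ : V → S × Bool → V → Prop) (EC : C → S × Bool → C → Prop) (f : S → S × Bool → K)
    (t : S → K) (γ : V → S × Bool → K) (γC : C → K) (sp : S → V) : Prop where
  symm : Symm flp Γ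
  det : Det Γ
  girth : Girth flp Γ g
  piece : Piece flp Γ 6
  allLetters : ∀ a, ∃ v v', Γ v a v'
  symmC : Symm flp EC
  detC : Det EC
  short : ∀ x v w x' v', Red flp w → Path EC x w x' → Path Γ v w v' → w.length ≤ 12
  grade : ∀ v s v', Γ v (s, true) v' → γ v' (s, false) = t s * γ v (s, true)
  ord : ∀ i v, (∀ j, v ≠ sp j) → ∑ a, (if ∃ v', Γ v a v' then f i a * γ v a else 0) = 0
  spec : ∀ i j, ∑ a, (if ∃ v', Γ (sp j) a v' then f i a * γ (sp j) a else 0) =
    f i (j, true) + t j * f i (j, false)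
  sep : ∀ j j' w, Path Γ (sp j) w (sp j') → j = j'
  gradeC : ∀ x s x', EC x (s, true) x' → γC x' = t s * γC x
  ordC : ∀ i x, ∑ a, (if ∃ x', EC x a x' then f i a * γC x else 0) = 0
  neC : ∀ x, γC x ≠ 0
  exC : ∃ x s x', EC x (s, true) x'
  unit : (Matrix.of fun i s => f i (s, true) + t s * f i (s, false)).det ≠ 0

theorem piece_of_pairs {V Λ : Type} {ι : Λ → Λ} {Γ : V → Λ → V → Prop} (Γs : Symm ι Γ)
    (Γd : Det Γ) (Sp : V → Prop)
    (twoSp : ∀ v v' (w : List Λ), Path Γ v w v' → Red ι w → w ≠ [] → w.length < 8 →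
      Sp v → Sp v' → False)
    (goodPair : ∀ (v0 v1 v2 v3 u0 u1 u2 u3 : V) a b c, Γ v0 a v1 → Γ v1 b v2 → Γ v2 c v3 →
      Γ u0 a u1 → Γ u1 b u2 → Γ u2 c u3 → b ≠ ι a → c ≠ ι b → ¬ Sp v1 → ¬ Sp v2 →
      ¬ Sp u1 → ¬ Sp u2 → v1 = u1) : Piece ι Γ 6 := by
  have back : ∀ v0 u0 v1 a, Γ v0 a v1 → Γ u0 a v1 → v0 = u0 := fun v0 u0 v1 a h1 h2 =>
    Γd _ _ _ _ (Γs _ _ _ h1) (Γs _ _ _ h2)
  have Γpiece : Piece ι Γ 6 := by
    intro w v0 u0 v' u' hr hl hp hq
    obtain ⟨a1, a2, a3, a4, a5, a6, a7, w, rfl⟩ : ∃ a1 a2 a3 a4 a5 a6 a7 w',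
        w = a1 :: a2 :: a3 :: a4 :: a5 :: a6 :: a7 :: w' := by
      rcases w with _ | ⟨a1, _ | ⟨a2, _ | ⟨a3, _ | ⟨a4, _ | ⟨a5, _ | ⟨a6, _ | ⟨a7, w⟩⟩⟩⟩⟩⟩⟩ <;>
        first | exact ⟨_, _, _, _, _, _, _, _, rfl⟩ | (simp at hl)
    simp only [path_cons_iff] at hp hq
    obtain ⟨v1, p1, v2, p2, v3, p3, v4, p4, v5, p5, v6, p6, v7, p7, -⟩ := hp
    obtain ⟨u1, q1, u2, q2, u3, q3, u4, q4, u5, q5, u6, q6, u7, q7, -⟩ := hq
    simp only [red_cons_cons] at hr
    obtain ⟨r1, r2, r3, r4, r5, r6, -⟩ := hr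
    have sp2 : ∀ (x1 x2 x3 x4 x5 x6 : V), Γ x1 a2 x2 → Γ x2 a3 x3 → Γ x3 a4 x4 → Γ x4 a5 x5 →
        Γ x5 a6 x6 → ¬ ((Sp x1 ∨ Sp x2) ∧ (Sp x3 ∨ Sp x4)) ∧
          ¬ ((Sp x1 ∨ Sp x2) ∧ (Sp x5 ∨ Sp x6)) ∧
          ¬ ((Sp x3 ∨ Sp x4) ∧ (Sp x5 ∨ Sp x6)) := by
      intro x1 x2 x3 x4 x5 x6 e2 e3 e4 e5 e6
      have s2 := Path.single e2
      have s3 := Path.single e3
      have s4 := Path.single e4
      have s5 := Path.single e5
      have s6 := Path.single e6
      refine ⟨?_, ?_, ?_⟩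
      · rintro ⟨h | h, h' | h'⟩
        · exact twoSp _ _ _ (s2.append s3) (by simp [red_cons_cons, *]) (by simp) (by simp) h h'
        · exact twoSp _ _ _ (s2.append (s3.append s4)) (by simp [red_cons_cons, *]) (by simp)
            (by simp) h h'
        · exact twoSp _ _ _ s3 (by simp) (by simp) (by simp) h h'
        · exact twoSp _ _ _ (s3.append s4) (by simp [red_cons_cons, *]) (by simp) (by simp) h h'
      · rintro ⟨h | h, h' | h'⟩
        · exact twoSp _ _ _ (s2.append (s3.append (s4.append s5))) (by simp [red_cons_cons, *])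
            (by simp) (by simp) h h'
        · exact twoSp _ _ _ (s2.append (s3.append (s4.append (s5.append s6))))
            (by simp [red_cons_cons, *]) (by simp) (by simp) h h'
        · exact twoSp _ _ _ (s3.append (s4.append s5)) (by simp [red_cons_cons, *]) (by simp)
            (by simp) h h'
        · exact twoSp _ _ _ (s3.append (s4.append (s5.append s6))) (by simp [red_cons_cons, *])
            (by simp) (by simp) h h'
      · rintro ⟨h | h, h' | h'⟩
        · exact twoSp _ _ _ (s4.append s5) (by simp [red_cons_cons, *]) (by simp) (by simp) h h'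
        · exact twoSp _ _ _ (s4.append (s5.append s6)) (by simp [red_cons_cons, *]) (by simp)
            (by simp) h h'
        · exact twoSp _ _ _ s5 (by simp) (by simp) (by simp) h h'
        · exact twoSp _ _ _ (s5.append s6) (by simp [red_cons_cons, *]) (by simp) (by simp) h h'
    obtain ⟨A1, A2, A3⟩ := sp2 _ _ _ _ _ _ p2 p3 p4 p5 p6
    obtain ⟨B1, B2, B3⟩ := sp2 _ _ _ _ _ _ q2 q3 q4 q5 q6
    by_cases c1 : (Sp v1 ∨ Sp v2) ∨ (Sp u1 ∨ Sp u2)
    · by_cases c2 : (Sp v3 ∨ Sp v4) ∨ (Sp u3 ∨ Sp u4)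
      · by_cases c3 : (Sp v5 ∨ Sp v6) ∨ (Sp u5 ∨ Sp u6)
        · exfalso
          rcases c1 with c1 | c1 <;> rcases c2 with c2 | c2 <;> rcases c3 with c3 | c3
          · exact A1 ⟨c1, c2⟩
          · exact A1 ⟨c1, c2⟩
          · exact A2 ⟨c1, c3⟩
          · exact B3 ⟨c2, c3⟩
          · exact A3 ⟨c2, c3⟩
          · exact B2 ⟨c1, c3⟩
          · exact B1 ⟨c1, c2⟩
          · exact B1 ⟨c1, c2⟩
        · push Not at c3
          have e5 := goodPair _ _ _ _ _ _ _ _ _ _ _ p5 p6 p7 q5 q6 q7 r5 r6 c3.1.1 c3.1.2 c3.2.1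
            c3.2.2
          subst e5
          obtain rfl := back _ _ _ _ p5 q5
          obtain rfl := back _ _ _ _ p4 q4
          obtain rfl := back _ _ _ _ p3 q3
          obtain rfl := back _ _ _ _ p2 q2
          exact back _ _ _ _ p1 q1
      · push Not at c2
        have e3 := goodPair _ _ _ _ _ _ _ _ _ _ _ p3 p4 p5 q3 q4 q5 r3 r4 c2.1.1 c2.1.2 c2.2.1
          c2.2.2
        subst e3
        obtain rfl := back _ _ _ _ p3 q3
        obtain rfl := back _ _ _ _ p2 q2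
        exact back _ _ _ _ p1 q1
    · push Not at c1
      have e1 := goodPair _ _ _ _ _ _ _ _ _ _ _ p1 p2 p3 q1 q2 q3 r1 r2 c1.1.1 c1.1.2 c1.2.1
        c1.2.2
      subst e1
      exact back _ _ _ _ p1 q1
  exact Γpiece

theorem design_exists (p : ℕ) [Fact p.Prime] (g : ℕ) (hg : 8 ≤ g) :
    ∃ (K : Type) (_ : Field K) (_ : Fintype K) (_ : CharP K p) (S V C : Type) (_ : Fintype S)
      (_ : Finite V) (_ : Finite C) (Γ : V → S × Bool → V → Prop) (EC : C → S × Bool → C → Prop)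
      (f : S → S × Bool → K) (t : S → K) (γ : V → S × Bool → K) (γC : C → K) (sp : S → V),
      Design g Γ EC f t γ γC sp := by
  obtain ⟨n, hn⟩ : ∃ n, n = 2 * g + 1 := ⟨_, rfl⟩
  obtain ⟨K, _, _, _, S, B, _, _, π, f, t, hK, hS, hfib, hnet, hsum, ht, hdet⟩ :=
    net_exists p (1 + n + (n + 2))
  let I := Fin n → K
  let W := Fin (n + 2) → K
  obtain ⟨δ0⟩ : Nonempty (Option (Kˣ × I × W) ↪ (Fin (1 + n + (n + 2)) → K)) := by
    apply Function.Embedding.nonempty_of_card_le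
    simp only [I, W, Fintype.card_option, Fintype.card_prod, Fintype.card_units, Fintype.card_pi,
      prod_const, card_univ, Fintype.card_fin]
    obtain ⟨q, hq⟩ : ∃ q, Fintype.card K = q + 1 := ⟨Fintype.card K - 1, by omega⟩
    rw [hq, Nat.add_sub_cancel, pow_add (q + 1) (1 + n), pow_add (q + 1) 1, pow_one]
    have : 1 ≤ (q + 1) ^ n * (q + 1) ^ (n + 2) := Nat.one_le_iff_ne_zero.2 (by positivity)
    nlinarith
  obtain ⟨ab⟩ : Nonempty (S ↪ W × W) := by
    apply Function.Embedding.nonempty_of_card_le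
    simp only [W, Fintype.card_prod, Fintype.card_pi, prod_const, card_univ, Fintype.card_fin]
    rw [hS, ← pow_add]
    exact le_of_eq (by congr 1; omega)
  have hI : 2 * (Fintype.card K + 1) ^ g < Nat.card I := by
    simp only [I, Nat.card_eq_fintype_card, Fintype.card_pi, prod_const, card_univ,
      Fintype.card_fin]
    rw [hn, pow_succ, pow_mul]
    have h1 : (Fintype.card K + 1) ^ g ≤ (Fintype.card K ^ 2) ^ g :=
      Nat.pow_le_pow_left (by nlinarith) _
    have h2 : 0 < (Fintype.card K ^ 2) ^ g := by positivity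
    nlinarith
  let δ : S → Kˣ → I → (Fin (1 + n + (n + 2)) → K) := fun j c i =>
    δ0 (some (c, i, (ab j).1 + (c : K) • (ab j).2))
  let tu : S → Kˣ := fun s => Units.mk0 (t s) (ht s).1
  let tw : S × Bool → Kˣ := fun a => if a.2 then tu a.1 else (tu a.1)⁻¹
  have tw_flp : ∀ a c, tw (flp a) * (tw a * c) = c := by
    rintro ⟨s, b⟩ c
    cases b <;> simp [tw, flp]
  have tw_ne : ∀ a, tw a ≠ 1 := by
    rintro ⟨s, b⟩
    have : tu s ≠ 1 := fun h => (ht s).2 (congrArg Units.val h)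
    cases b <;> simpa [tw] using this
  let T : S → Option (Kˣ × I × B) → S × Bool → Prop := fun j x a =>
    match x with
    | none => a.1 = j
    | some y => π (δ j y.1 y.2.1) a = y.2.2
  let gr : S → Option (Kˣ × I × B) → S × Bool → Kˣ := fun j x a =>
    match x with
    | none => if a.2 then 1 else tu j
    | some y => y.1
  have hES : ∀ j, ∃ E : Option (Kˣ × I × B) → S × Bool → Option (Kˣ × I × B) → Prop,
      Symm flp E ∧ Det E ∧ Girth flp E g ∧ (∀ v a, T j v a → ∃ v', E v a v') ∧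
      ∀ v a v', E v a v' → T j v a ∧ gr j v' (flp a) = tw a * gr j v a := by
    intro j
    refine erdos_sachs flp flp_flp flp_ne (T j) (Fintype.card K) g ?_ (gr j)
      (fun a c => tw a * c) tw_flp ?_ ?_
    · rintro (_ | y)
      · have : {a | T j none a} ⊆ {(j, true), (j, false)} := by
          rintro ⟨s, b⟩ h
          have h' : s = j := h
          subst h'
          cases b <;> simp
        refine (Set.ncard_le_ncard this (Set.toFinite _)).trans ?_
        refine (Set.ncard_insert_le _ _).trans ?_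
        simp
        omega
      · exact hfib _ _
    · intro a c
      refine Set.ncard_le_ncard_of_injOn (fun x => match x with
        | none => none
        | some y => some (tw a * c, y.2.1, π (δ j (tw a * c) y.2.1) (flp a))) ?_ ?_
        (Set.toFinite _)
      · rintro (_ | y) ⟨h1, h2⟩
        · obtain ⟨s, b⟩ := a
          have h' : s = j := h1
          subst h'
          refine ⟨rfl, ?_⟩
          rw [← h2]
          cases b <;> simp [gr, tw, flp]
        · exact ⟨rfl, rfl⟩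
      · rintro (_ | ⟨c1, i1, b1⟩) ⟨h1, h2⟩ (_ | ⟨c2, i2, b2⟩) ⟨h3, h4⟩ h
        · rfl
        · simp at h
        · simp at h
        · simp only [Option.some.injEq, Prod.mk.injEq, true_and] at h
          have e1 : c1 = c := h2
          have e2 : c2 = c := h4
          have e3 : π (δ j c1 i1) a = b1 := h1
          have e4 : π (δ j c2 i2) a = b2 := h3
          rw [← e3, ← e4, e1, e2, h.1]
    · intro a c
      refine lt_of_lt_of_le hI ?_
      rw [← Set.ncard_univ]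
      refine Set.ncard_le_ncard_of_injOn (fun i => some (c, i, π (δ j c i) a))
        (fun i _ => ⟨rfl, rfl⟩) ?_ (Set.toFinite _)
      intro i _ i' _ h
      simp only [Option.some.injEq, Prod.mk.injEq, true_and] at h
      exact h.1
  choose E hEs hEd hEg hEt hEe using hES
  let V := S × Option (Kˣ × I × B)
  let Γ : V → S × Bool → V → Prop := fun v a v' => v'.1 = v.1 ∧ E v.1 v.2 a v'.2
  have Γs : Symm flp Γ := by
    rintro ⟨j, x⟩ a ⟨j', x'⟩ ⟨h1, h2⟩
    simp only at h1 h2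
    subst h1
    exact ⟨rfl, hEs _ _ _ _ h2⟩
  have Γd : Det Γ := by
    rintro ⟨j, x⟩ a ⟨j1, x1⟩ ⟨j2, x2⟩ ⟨h1, h2⟩ ⟨h3, h4⟩
    exact Prod.ext (h1.trans h3.symm) (hEd _ _ _ _ _ h2 h4)
  have Γp : ∀ (w : List (S × Bool)) v v', Path Γ v w v' → v'.1 = v.1 ∧ Path (E v.1) v.2 w v'.2 := by
    intro w v v' h
    induction h with
    | nil x => exact ⟨rfl, Path.nil _⟩
    | cons h1 _ ih =>
      obtain ⟨e1, e2⟩ := ih
      rw [h1.1] at e1 e2
      exact ⟨e1, Path.cons h1.2 e2⟩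
  have Γg : Girth flp Γ g := fun v w hr hp hl => hEg v.1 v.2 w hr (Γp _ _ _ hp).2 hl
  have ΓT : ∀ v a, (∃ v', Γ v a v') ↔ T v.1 v.2 a := by
    intro v a
    constructor
    · rintro ⟨v', h⟩
      exact (hEe _ _ _ _ h.2).1
    · intro h
      obtain ⟨x', hx'⟩ := hEt _ _ _ h
      exact ⟨(v.1, x'), rfl, hx'⟩
  have twoSp : ∀ v v' (w : List (S × Bool)), Path Γ v w v' → Red flp w → w ≠ [] → w.length < 8 →
      v.2 = none → v'.2 = none → False := by
    intro v v' w hp hr hne hl h1 h2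
    have : v' = v := Prod.ext (Γp _ _ _ hp).1 (h2.trans h1.symm)
    rw [this] at hp
    exact hne (Γg _ _ hr hp (by omega))
  have sameLine : ∀ (v0 v1 v2 : V) a b y bb, Γ v0 a v1 → Γ v1 b v2 → b ≠ flp a →
      π y (flp a) = bb → π y b = bb → ∀ c i b1, v1.2 = some (c, i, b1) →
      δ v1.1 c i = y ∧ b1 = bb := by
    intro v0 v1 v2 a b y bb h1 h2 hab e1 e2 c i b1 hv
    have t1 := (ΓT _ _).1 ⟨_, Γs _ _ _ h1⟩
    have t2 := (ΓT _ _).1 ⟨_, h2⟩
    rw [hv] at t1 t2
    have t1' : π (δ v1.1 c i) (flp a) = b1 := t1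
    have t2' : π (δ v1.1 c i) b = b1 := t2
    have := hnet _ y _ _ hab (t2'.trans t1'.symm) (e2.trans e1.symm)
    exact ⟨this, by rw [← t1', this, e1]⟩
  have goodPair : ∀ (v0 v1 v2 v3 u0 u1 u2 u3 : V) a b c, Γ v0 a v1 → Γ v1 b v2 → Γ v2 c v3 →
      Γ u0 a u1 → Γ u1 b u2 → Γ u2 c u3 → b ≠ flp a → c ≠ flp b → v1.2 ≠ none → v2.2 ≠ none →
      u1.2 ≠ none → u2.2 ≠ none → v1 = u1 := by
    rintro v0 ⟨j, _ | ⟨c1, i1, b1⟩⟩ ⟨j2, _ | ⟨c2, i2, b2⟩⟩ v3 u0 ⟨k, _ | ⟨d1, k1, e1⟩⟩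
      ⟨k2', _ | ⟨d2, k2, e2⟩⟩ u3 a b c h1 h2 h3 g1 g2 g3 hab hbc n1 n2 n3 n4 <;>
      try contradiction
    obtain rfl : j2 = j := h2.1
    obtain rfl : k2' = k := g2.1
    have s1 := sameLine _ _ _ _ _ _ _ h1 h2 hab ((ΓT _ _).1 ⟨_, Γs _ _ _ g1⟩)
      ((ΓT _ _).1 ⟨_, g2⟩) _ _ _ rfl
    have s2 := sameLine _ _ _ _ _ _ _ h2 h3 hbc ((ΓT _ _).1 ⟨_, Γs _ _ _ g2⟩)
      ((ΓT _ _).1 ⟨_, g3⟩) _ _ _ rfl
    have r1 := δ0.injective s1.1
    have r2 := δ0.injective s2.1
    simp only [Option.some.injEq, Prod.mk.injEq] at r1 r2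
    obtain ⟨rfl, rfl, r1⟩ := r1
    obtain ⟨rfl, rfl, r2⟩ := r2
    have hc : c2 = tw b * c1 := (hEe _ _ _ _ h2.2).2
    have hne : (c1 : K) - c2 ≠ 0 := by
      intro h
      have : c1 = c2 := Units.ext (sub_eq_zero.1 h)
      rw [this] at hc
      exact tw_ne b (by simpa using hc.symm)
    have hβ : (ab j2).2 = (ab k2').2 := by
      have : ((c1 : K) - c2) • ((ab j2).2 - (ab k2').2) = 0 := by
        linear_combination (norm := module) r1 - r2
      exact sub_eq_zero.1 ((smul_eq_zero.1 this).resolve_left hne)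
    have hα : (ab j2).1 = (ab k2').1 := by
      rw [hβ] at r1
      exact add_right_cancel r1
    have hj : j2 = k2' := ab.injective (Prod.ext hα hβ)
    have hb : b1 = e1 := s1.2
    rw [hj, hb]
  have Γpiece : Piece flp Γ 6 := piece_of_pairs Γs Γd (fun v => v.2 = none) twoSp goodPair
  let y0 := δ0 none
  let EC : Kˣ × B → S × Bool → Kˣ × B → Prop := fun x a x' =>
    π y0 a = x.2 ∧ x' = (tw a * x.1, π y0 (flp a))
  have ECs : Symm flp EC := by
    rintro ⟨c, b⟩ a x' ⟨h1, rfl⟩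
    refine ⟨rfl, ?_⟩
    simp only at h1
    rw [tw_flp, flp_flp, h1]
  have hSne : Nonempty S := by
    rw [← Fintype.card_pos_iff, hS]
    positivity
  refine ⟨K, inferInstance, inferInstance, inferInstance, S, V, Kˣ × B, inferInstance,
    inferInstance, inferInstance, Γ, EC, f, t, fun v a => gr v.1 v.2 a, fun x => x.1,
    fun j => (j, none), Γs, Γd, Γg, Γpiece, ?_, ECs, ?_, ?_, ?_, ?_, ?_, ?_, ?_, ?_, ?_, ?_, hdet⟩
  · intro a
    obtain ⟨v', h⟩ := (ΓT (a.1, none) a).2 rfl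
    exact ⟨_, v', h⟩
  · rintro x a y y' ⟨-, rfl⟩ ⟨-, rfl⟩
    rfl
  · intro x v0 w x' v' hr hp hq
    by_contra hl
    obtain ⟨a1, a2, a3, w, rfl⟩ : ∃ a1 a2 a3 w', w = a1 :: a2 :: a3 :: w' := by
      rcases w with _ | ⟨a1, _ | ⟨a2, _ | ⟨a3, w⟩⟩⟩ <;>
        first | exact ⟨_, _, _, _, rfl⟩ | (simp at hl)
    simp only [path_cons_iff] at hp hq
    obtain ⟨x1, p1, x2, p2, x3, p3, -⟩ := hp
    obtain ⟨v1, q1, v2, q2, v3, q3, -⟩ := hq
    simp only [red_cons_cons] at hr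
    obtain ⟨r1, r2, -⟩ := hr
    have key : ∀ (x0 x1 x2 : Kˣ × B) (v0 v1 v2 : V) a b, EC x0 a x1 → EC x1 b x2 → Γ v0 a v1 →
        Γ v1 b v2 → b ≠ flp a → v1.2 = none := by
      intro x0 x1 x2 v0 v1 v2 a b e1 e2 e3 e4 hab
      rcases hv : v1.2 with _ | ⟨c, i, b1⟩
      · rfl
      · have := (sameLine _ _ _ _ _ _ _ e3 e4 hab (ECs _ _ _ e1).1 e2.1 _ _ _ hv).1
        have := δ0.injective this
        simp at this
    exact twoSp _ _ _ (Path.single q2) (by simp) (by simp) (by simp)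
      (key _ _ _ _ _ _ _ _ p1 p2 q1 q2 r1) (key _ _ _ _ _ _ _ _ p2 p3 q2 q3 r2)
  · intro v s v' h
    have := (hEe _ _ _ _ h.2).2
    rw [h.1]
    have e : flp (s, true) = (s, false) := rfl
    rw [e] at this
    simp only [this]
    simp [tw, tu]
  · rintro i ⟨j, _ | ⟨c, k, b⟩⟩ hv
    · exact absurd rfl (hv j)
    · have : ∀ a, (if ∃ v', Γ (j, some (c, k, b)) a v' then f i a * (gr j (some (c, k, b)) a : K)
          else 0) = (if π (δ j c k) a = b then f i a else 0) * (c : K) := by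
        intro a
        rw [ΓT]
        simp [T, gr]
      simp only [this]
      rw [← Finset.sum_mul, hsum, zero_mul]
  · intro i j
    simp only [ΓT, T, gr, Fintype.sum_prod_type]
    rw [Finset.sum_eq_single j]
    · simp [tu, mul_comm]
    · intro s _ hs
      simp [hs]
    · simp
  · intro j j' w h
    exact (Γp _ _ _ h).1.symm
  · rintro x s x' ⟨-, rfl⟩
    simp [tw, tu]
  · rintro i ⟨c, b⟩
    have : ∀ a, (if ∃ x', EC (c, b) a x' then f i a * (c : K) else 0) =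
        (if π y0 a = b then f i a else 0) * (c : K) := by
      intro a
      simp [EC]
    simp only [this]
    rw [← Finset.sum_mul, hsum, zero_mul]
  · intro x
    exact x.1.ne_zero
  · obtain ⟨s⟩ := hSne
    exact ⟨(1, π y0 (s, true)), s, _, rfl, rfl⟩

end Vale.Agent.P194
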