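import Vale.Agent.P194.Step

/-
The group presented by a finite labelled graph.
-/

namespace Vale.Agent.P194

open Classical

/-- Inversion of letters. -/
def flp {S : Type} (a : S × Bool) : S × Bool := (a.1, !a.2)

theorem flp_flp {S : Type} (a : S × Bool) : flp (flp a) = a := by simp [flp]

theorem flp_ne {S : Type} (a : S × Bool) : flp a ≠ a := by
  obtain ⟨s, b⟩ := a
  cases b <;> simp [flp]

/-- Evaluation of words, for left multiplication. -/
def ev {Λ G : Type} [Group G] (φ : Λ → G) : List Λ → G
  | [] => 1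
  | a :: w => ev φ w * φ a

theorem map_ev {Λ G H : Type} [Group G] [Group H] (φ : Λ → G) (ρ : G →* H) (w : List Λ) :
    ρ (ev φ w) = ev (fun a => ρ (φ a)) w := by
  induction w with
  | nil => simp [ev]
  | cons a w ih => simp [ev, ih]

theorem path_ev {Λ Z : Type} {E : Z → Λ → Z → Prop} (φ : Λ → Equiv.Perm Z)
    (h : ∀ z a, E z a (φ a z)) (w : List Λ) : ∀ z, Path E z w (ev φ w z) := by
  induction w with
  | nil => exact fun z => Path.nil z
  | cons a w ih => exact fun z => Path.cons (h z a) (ih _)

/-- The Cayley graph for left multiplication. -/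
def Cay {Λ G : Type} [Group G] (gl : Λ → G) : G → Λ → G → Prop := fun x a y => y = gl a * x

theorem group_exists {S V : Type} [Finite S] [Finite V] (Γ : V → S × Bool → V → Prop)
    (hs : Symm flp Γ) :
    ∃ (G : Type) (_ : Group G) (gl : S × Bool → G), Group.IsFinitelyPresented G ∧
      (∀ a, gl (flp a) = (gl a)⁻¹) ∧ Subgroup.closure (Set.range gl) = ⊤ ∧
      (∀ x v, Full Γ (Cay gl) x v) ∧
      ∀ (Z : Type) (E : Z → S × Bool → Z → Prop), Symm flp E → Det E → (∀ z a, ∃ z', E z a z') →
        (∀ z v, Full Γ E z v) → ∃ ρ : G →* Equiv.Perm Z, ∀ z a, E z a (ρ (gl a) z) := by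
  let st : Setoid V := ⟨fun v v' => ∃ w, Path Γ v w v', fun v => ⟨[], Path.nil v⟩,
    fun ⟨w, h⟩ => ⟨_, h.inv hs⟩, fun ⟨_, h⟩ ⟨_, h'⟩ => ⟨_, h.append h'⟩⟩
  let base : V → V := fun v => (Quotient.mk st v).out
  have hb : ∀ v, ∃ w, Path Γ (base v) w v := fun v => Quotient.mk_out (s := st) v
  have hb' : ∀ v a v', Γ v a v' → base v' = base v := by
    intro v a v' h
    have : Quotient.mk st v = Quotient.mk st v' := Quotient.sound ⟨[a], Path.single h⟩
    simp only [base, this]
  choose wd hwd using hb
  let fl : S × Bool → FreeGroup S := fun a => if a.2 then FreeGroup.of a.1 else (FreeGroup.of a.1)⁻¹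
  let rel : V × (S × Bool) × V → FreeGroup S := fun x =>
    (ev fl (wd x.2.2))⁻¹ * (fl x.2.1 * ev fl (wd x.1))
  let rels : Set (FreeGroup S) := rel '' {x | Γ x.1 x.2.1 x.2.2}
  have : Finite rels := Set.Finite.image _ (Set.toFinite _)
  let G := PresentedGroup rels
  let gl : S × Bool → G := fun a => PresentedGroup.mk rels (fl a)
  let h : V → G := fun v => PresentedGroup.mk rels (ev fl (wd v))
  have hh : ∀ v a v', Γ v a v' → h v' = gl a * h v := by
    intro v a v' e
    have := PresentedGroup.mk_eq_mk_of_inv_mul_mem (rels := rels) ⟨(v, a, v'), e, rfl⟩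
    simpa [h, gl] using this
  refine ⟨G, inferInstance, gl, inferInstance, ?_, ?_, ?_, ?_⟩
  · rintro ⟨s, b⟩
    cases b
    · simp only [gl, fl, flp, Bool.false_eq_true, if_false, Bool.not_false, if_true, map_inv]
      exact (inv_inv _).symm
    · simp [gl, fl, flp]
  · rw [eq_top_iff, ← PresentedGroup.closure_range_of rels]
    apply Subgroup.closure_mono
    rintro _ ⟨s, rfl⟩
    exact ⟨(s, true), rfl⟩
  · intro x v
    refine ⟨fun u => h u * ((h v)⁻¹ * x), ?_, by simp⟩
    intro u a u' e
    simp only [Cay]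
    rw [hh _ _ _ e, mul_assoc]
  · intro Z E hsE hd tot full
    choose nx hnx using tot
    have hinv : ∀ z a, nx (nx z a) (flp a) = z := fun z a =>
      hd _ _ _ _ (hnx _ _) (hsE _ _ _ (hnx z a))
    let pm : S → Equiv.Perm Z := fun s =>
      ⟨fun z => nx z (s, true), fun z => nx z (s, false), fun z => hinv z (s, true),
        fun z => hinv z (s, false)⟩
    have hl : ∀ z a, E z a (FreeGroup.lift pm (fl a) z) := by
      rintro z ⟨s, b⟩
      cases b
      · simp only [fl, Bool.false_eq_true, if_false, map_inv, FreeGroup.lift_apply_of]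
        exact hnx z (s, false)
      · simp only [fl, if_true, FreeGroup.lift_apply_of]
        exact hnx z (s, true)
    have hp : ∀ w z, Path E z w (FreeGroup.lift pm (ev fl w) z) := by
      intro w z
      rw [map_ev]
      exact path_ev _ hl w z
    have hrel : ∀ r ∈ rels, FreeGroup.lift pm r = 1 := by
      rintro _ ⟨⟨v, a, v'⟩, e, rfl⟩
      simp only [rel, map_mul, map_inv, inv_mul_eq_one]
      ext z
      obtain ⟨F, hF, rfl⟩ := full z (base v)
      have e1 : FreeGroup.lift pm (ev fl (wd v)) (F (base v)) = F v :=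
        (hp _ _).det hd ((hwd v).map F hF)
      have e2 : FreeGroup.lift pm (ev fl (wd v')) (F (base v)) = F v' := by
        rw [← hb' _ _ _ e]
        exact (hp _ _).det hd ((hwd v').map F hF)
      rw [Equiv.Perm.mul_apply, e1, e2]
      exact hd _ _ _ _ (hF _ _ _ e) (hl _ _)
    exact ⟨PresentedGroup.toGroup hrel, hl⟩

end Vale.Agent.P194
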