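import Mathlib

/-
Passing from matrix rings over group algebras to group algebras, change of field, and
reduction to finitely presented groups.
-/

namespace Vale.Agent.P194

open Classical Finset

/-- Failure of direct finiteness. -/
def NDF (R : Type*) [Monoid R] : Prop := ∃ a b : R, a * b = 1 ∧ b * a ≠ 1

theorem NDF.map {R R' F : Type*} [Monoid R] [Monoid R'] [FunLike F R R'] [MonoidHomClass F R R']
    (φ : F) (hφ : Function.Injective φ) (h : NDF R) : NDF R' := by
  obtain ⟨a, b, h1, h2⟩ := h
  refine ⟨φ a, φ b, by rw [← map_mul, h1, map_one], fun h => h2 (hφ ?_)⟩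
  rw [map_mul, h, map_one]

theorem ndf_of_units {n R R' : Type*} [Fintype n] [DecidableEq n] [Ring R] [Ring R'] (φ : R →+* R')
    (e : n → n → R') (he : ∀ i j k l, e i j * e k l = if j = k then e i l else 0)
    (hc : ∀ r i j, Commute (φ r) (e i j)) (hf : ∀ r i j, φ r * e i j = 0 → r = 0)
    (h : NDF (Matrix n n R)) : NDF R' := by
  let Φ : Matrix n n R → R' := fun A => ∑ i, ∑ j, φ (A i j) * e i j
  have hmul : ∀ A B, Φ A * Φ B = Φ (A * B) := by
    intro A B
    have : ∀ i j k l, φ (A i j) * e i j * (φ (B k l) * e k l) =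
        if j = k then φ (A i j) * φ (B j l) * e i l else 0 := by
      intro i j k l
      rw [mul_assoc, ← mul_assoc (e i j), ← (hc _ _ _).eq, mul_assoc, he]
      split_ifs with h
      · rw [h, mul_assoc]
      · simp
    have h2 : ∀ i j, φ (A i j) * e i j * Φ B = ∑ l, φ (A i j) * φ (B j l) * e i l := by
      intro i j
      simp only [Φ, Finset.mul_sum, this]
      rw [Finset.sum_comm]
      simp
    calc Φ A * Φ B = ∑ i, ∑ j, φ (A i j) * e i j * Φ B := by
          simp only [Φ, Finset.sum_mul]
      _ = Φ (A * B) := by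
          simp only [h2]
          simp only [Φ, Matrix.mul_apply, map_sum, map_mul, Finset.sum_mul]
          exact Finset.sum_congr rfl fun i _ => Finset.sum_comm
  have hsub : ∀ A B, Φ (A - B) = Φ A - Φ B := by
    intro A B
    simp only [Φ, Matrix.sub_apply, map_sub, sub_mul, Finset.sum_sub_distrib]
  have hinj : ∀ A, Φ A = 0 → A = 0 := by
    intro A hA
    ext i j
    apply hf _ i j
    have : e i i * Φ A * e j j = φ (A i j) * e i j := by
      simp only [Φ, Finset.sum_mul, Finset.mul_sum]
      have : ∀ k l, e i i * (φ (A k l) * e k l) * e j j =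
          if i = k then (if l = j then φ (A i j) * e i j else 0) else 0 := by
        intro k l
        rw [← mul_assoc (e i i), ← (hc _ _ _).eq, mul_assoc (φ _), he]
        split_ifs with h1 h2
        · rw [mul_assoc, he, if_pos h2, h1, h2]
        · rw [mul_assoc, he, if_neg h2, mul_zero]
        · simp
      simp [this]
    rw [← this, hA]
    simp
  have key : ∀ A B, (Φ A + (1 - Φ 1)) * (Φ B + (1 - Φ 1)) = Φ (A * B) + (1 - Φ 1) := by
    intro A B
    simp only [add_mul, mul_add, mul_sub, sub_mul, hmul, one_mul, mul_one]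
    abel
  obtain ⟨A, B, h1, h2⟩ := h
  refine ⟨Φ A + (1 - Φ 1), Φ B + (1 - Φ 1), by rw [key, h1]; simp, fun h => h2 ?_⟩
  rw [key] at h
  have : Φ (B * A - 1) = 0 := by
    rw [hsub]
    linear_combination (norm := abel) h
  exact sub_eq_zero.1 (hinj _ this)

theorem exists_units (L : Type*) [Field L] (n : Type) [Fintype n] [DecidableEq n] (i0 : n)
    (A : Type) [CommGroup A] [Fintype A] [Nontrivial A] (hA : (Fintype.card A : L) ≠ 0) :
    ∃ (H : Type) (_ : Group H) (e : n → n → MonoidAlgebra L H),
      (∀ i j k l, e i j * e k l = if j = k then e i l else 0) ∧ ∀ i j, e i j ≠ 0 := by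
  let B := n → A
  let H := B ⋊[mulAutArrow (G := Equiv.Perm n) (A := n) (M := A)] Equiv.Perm n
  let η : n → MonoidAlgebra L B := fun i =>
    (Fintype.card A : L)⁻¹ • ∑ a : A, MonoidAlgebra.of L B (Pi.mulSingle i a)
  have hη : ∀ i, η i * η i = η i := by
    intro i
    have : ∀ b : A, MonoidAlgebra.of L B (Pi.mulSingle i b) *
        ∑ a : A, MonoidAlgebra.of L B (Pi.mulSingle i a) =
        ∑ a : A, MonoidAlgebra.of L B (Pi.mulSingle i a) := by
      intro b
      rw [Finset.mul_sum]
      refine Fintype.sum_equiv (Equiv.mulLeft b) _ _ fun a => ?_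
      rw [← map_mul, ← Pi.mulSingle_mul]
      rfl
    simp only [η, smul_mul_smul_comm]
    rw [Finset.sum_mul]
    simp only [this, Finset.sum_const, card_univ]
    rw [← Nat.cast_smul_eq_nsmul L, smul_smul, mul_assoc, inv_mul_cancel₀ hA, mul_one]
  let ε : n → MonoidAlgebra L B := fun i => (1 - η i) * ∏ j ∈ Finset.univ.erase i, η j
  have hεε : ∀ i, ε i * ε i = ε i := by
    intro i
    have h1 : (1 - η i) * (1 - η i) = 1 - η i := by
      rw [sub_mul, one_mul, mul_sub, mul_one, hη, sub_self, sub_zero]
    have h2 : (∏ j ∈ Finset.univ.erase i, η j) * ∏ j ∈ Finset.univ.erase i, η j =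
        ∏ j ∈ Finset.univ.erase i, η j := by
      rw [← Finset.prod_mul_distrib]
      simp only [hη]
    simp only [ε]
    rw [mul_mul_mul_comm, h1, h2]
  have hεε' : ∀ i j, i ≠ j → ε i * ε j = 0 := by
    intro i j hij
    have h1 : (1 - η i) * η i = 0 := by rw [sub_mul, one_mul, hη, sub_self]
    simp only [ε]
    rw [← Finset.mul_prod_erase (Finset.univ.erase j) η (a := i) (by simp [hij])]
    linear_combination ((∏ j ∈ Finset.univ.erase i, η j) * (1 - η j) *
      ∏ x ∈ (Finset.univ.erase j).erase i, η x) * h1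
  have hε0 : ε i0 ≠ 0 := by
    intro h
    let pr : MonoidAlgebra L B →ₐ[L] MonoidAlgebra L A :=
      MonoidAlgebra.mapDomainAlgHom L L (Pi.evalMonoidHom (fun _ => A) i0)
    have h0 : ∀ x : B, pr (MonoidAlgebra.of L B x) = MonoidAlgebra.single (x i0) 1 :=
      fun x => MonoidAlgebra.mapDomain_single
    have h1 : ∀ j, j ≠ i0 → pr (η j) = 1 := by
      intro j hj
      simp only [η, map_smul, map_sum, h0, Pi.mulSingle_eq_of_ne hj.symm, Finset.sum_const,
        card_univ]
      rw [← Nat.cast_smul_eq_nsmul L, smul_smul, inv_mul_cancel₀ hA, one_smul]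
      rfl
    have h2 := congrArg pr h
    simp only [ε, map_mul, map_prod, map_zero] at h2
    rw [Finset.prod_eq_one (fun j hj => h1 j (Finset.mem_erase.1 hj).1), mul_one] at h2
    obtain ⟨a, ha⟩ := exists_ne (1 : A)
    simp only [η, map_sub, map_one, map_smul, map_sum, h0, Pi.mulSingle_eq_same] at h2
    have h3 := congrArg (fun x : MonoidAlgebra L A => x.coeff a) h2
    simp [MonoidAlgebra.one_def, Finsupp.single_apply, ha.symm, hA] at h3
  let ι : MonoidAlgebra L B →ₐ[L] MonoidAlgebra L H :=
    MonoidAlgebra.mapDomainAlgHom L L SemidirectProduct.inl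
  have hι : Function.Injective ι :=
    MonoidAlgebra.mapDomain_injective SemidirectProduct.inl_injective
  let u : Equiv.Perm n → MonoidAlgebra L H := fun σ =>
    MonoidAlgebra.of L H (SemidirectProduct.inr σ)
  have hu : ∀ σ, u σ⁻¹ * u σ = 1 := fun σ => by
    simp only [u, ← map_mul, inv_mul_cancel, map_one]
  have hu' : ∀ σ, u σ * u σ⁻¹ = 1 := fun σ => by
    simp only [u, ← map_mul, mul_inv_cancel, map_one]
  have hconj : ∀ σ i, u σ * ι (ε i) * u σ⁻¹ = ι (ε (σ i)) := by
    intro σ i
    let α : MonoidAlgebra L B →ₐ[L] MonoidAlgebra L B := MonoidAlgebra.mapDomainAlgHom L L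
      (mulAutArrow (G := Equiv.Perm n) (A := n) (M := A) σ).toMonoidHom
    have h1 : ∀ x, u σ * ι x * u σ⁻¹ = ι (α x) := by
      intro x
      induction x using MonoidAlgebra.induction_linear with
      | zero => simp
      | add x y hx hy => simp only [map_add, mul_add, add_mul, hx, hy]
      | single b r =>
        simp only [u, ι, α, MonoidAlgebra.mapDomainAlgHom_apply, MonoidAlgebra.mapDomain_single,
          MonoidAlgebra.of_apply, MonoidAlgebra.single_mul_single, one_mul, mul_one]
        congr 1
        exact (SemidirectProduct.inl_aut σ b).symm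
    have h2 : ∀ j, α (η j) = η (σ j) := by
      intro j
      simp only [η, map_smul, map_sum, α, MonoidAlgebra.of_apply,
        MonoidAlgebra.mapDomainAlgHom_apply, MonoidAlgebra.mapDomain_single]
      congr 1
      refine Finset.sum_congr rfl fun a _ => ?_
      congr 1
      funext k
      change Pi.mulSingle (M := fun _ => A) j a (σ⁻¹ k) = Pi.mulSingle (M := fun _ => A) (σ j) a k
      simp only [Pi.mulSingle_apply, Equiv.Perm.inv_eq_iff_eq]
    rw [h1]
    congr 1
    simp only [ε, map_mul, map_sub, map_one, map_prod, h2]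
    congr 1
    refine Finset.prod_equiv σ ?_ (fun _ _ => rfl)
    simp
  let q : n → Equiv.Perm n := fun i => Equiv.swap i0 i
  have hq : ∀ i, q i i0 = i := fun i => Equiv.swap_apply_left _ _
  refine ⟨H, inferInstance, fun i j => u (q i) * ι (ε i0) * u (q j)⁻¹, ?_, ?_⟩
  · intro i j k l
    split_ifs with h
    · subst h
      calc _ = u (q i) * (ι (ε i0) * (u (q j)⁻¹ * u (q j)) * ι (ε i0)) * u (q l)⁻¹ := by
            simp only [mul_assoc]
        _ = _ := by rw [hu, mul_one, ← map_mul, hεε]
    · have h1 : u (q j) * ι (ε i0) * u (q j)⁻¹ * (u (q k) * ι (ε i0) * u (q k)⁻¹) = 0 := by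
        rw [hconj, hconj, hq, hq, ← map_mul, hεε' _ _ h, map_zero]
      calc _ = u (q i) * (u (q j)⁻¹ * u (q j)) * ι (ε i0) * u (q j)⁻¹ *
            (u (q k) * ι (ε i0) * (u (q k)⁻¹ * u (q k)) * u (q l)⁻¹) := by
            rw [hu, hu, mul_one, mul_one]
        _ = u (q i) * u (q j)⁻¹ * (u (q j) * ι (ε i0) * u (q j)⁻¹ *
            (u (q k) * ι (ε i0) * u (q k)⁻¹)) * (u (q k) * u (q l)⁻¹) := by
            simp only [mul_assoc]
        _ = 0 := by rw [h1, mul_zero, zero_mul]
  · intro i j h
    apply hε0
    apply hι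
    calc ι (ε i0) = u (q i)⁻¹ * u (q i) * ι (ε i0) * (u (q j)⁻¹ * u (q j)) := by
          rw [hu, hu, one_mul, mul_one]
      _ = u (q i)⁻¹ * (u (q i) * ι (ε i0) * u (q j)⁻¹) * u (q j) := by simp only [mul_assoc]
      _ = ι 0 := by
          rw [show u (q i) * ι (ε i0) * u (q j)⁻¹ = 0 from h]
          simp

theorem ndf_group_of_matrix (p : ℕ) [Fact p.Prime] (L : Type*) [Field L] [CharP L p] (G : Type)
    [Group G] (n : Type) [Fintype n] [DecidableEq n] (h : NDF (Matrix n n (MonoidAlgebra L G))) :
    ∃ (G' : Type) (_ : Group G'), NDF (MonoidAlgebra L G') := by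
  have hn : Nonempty n := by
    by_contra hn
    rw [not_nonempty_iff] at hn
    obtain ⟨a, b, -, h2⟩ := h
    exact h2 (Subsingleton.elim _ _)
  obtain ⟨i0⟩ := hn
  have hp := (Fact.out : p.Prime).two_le
  have : Fact (1 < p + 1) := ⟨by omega⟩
  obtain ⟨H, _, e, he, he0⟩ := exists_units L n i0 (Multiplicative (ZMod (p + 1))) (by simp)
  let R := MonoidAlgebra L G
  let ψ : MonoidAlgebra L H →+* MonoidAlgebra R H := MonoidAlgebra.mapRingHom H (algebraMap L R)
  have hs : ∀ r : R, MonoidAlgebra.singleOneRingHom r = MonoidAlgebra.single (1 : H) r :=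
    fun _ => rfl
  have h2 : NDF (MonoidAlgebra R H) := by
    refine ndf_of_units MonoidAlgebra.singleOneRingHom (fun i j => ψ (e i j)) ?_ ?_ ?_ h
    · intro i j k l
      rw [← map_mul, he]
      split_ifs <;> simp
    · intro r i j
      generalize e i j = x
      induction x using MonoidAlgebra.induction_linear with
      | zero => simp
      | add x y hx hy => rw [map_add]; exact hx.add_right hy
      | single b c =>
        simp only [ψ, MonoidAlgebra.mapRingHom_single, hs,
          Commute, SemiconjBy, MonoidAlgebra.single_mul_single, one_mul, mul_one]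
        rw [Algebra.commutes]
    · intro r i j hr
      obtain ⟨b, hb⟩ : ∃ b, (e i j).coeff b ≠ 0 := by
        by_contra hcon
        push Not at hcon
        exact he0 i j (MonoidAlgebra.ext (Finsupp.ext hcon))
      have := congrArg (fun x : MonoidAlgebra R H => x.coeff b) hr
      simp only [ψ, hs, MonoidAlgebra.coeff_single_one_mul,
        MonoidAlgebra.coeff_mapRingHom, MonoidAlgebra.coeff_zero, Finsupp.zero_apply] at this
      rw [← Algebra.commutes, ← Algebra.smul_def] at this
      exact (smul_eq_zero.1 this).resolve_left hb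
  exact ⟨H × G, inferInstance, h2.map (MonoidAlgebra.curryRingEquiv (R := L)).symm
    (MonoidAlgebra.curryRingEquiv (R := L)).symm.injective⟩

theorem ndf_change_field (p : ℕ) [Fact p.Prime] (K : Type) [Field K] [Fintype K] [CharP K p]
    (L : Type*) [Field L] [CharP L p] (G : Type) [Group G] (n : Type) [Fintype n] [DecidableEq n]
    (h : NDF (Matrix n n (MonoidAlgebra K G))) :
    ∃ r : ℕ, NDF (Matrix (n × Fin r) (n × Fin r) (MonoidAlgebra L G)) := by
  let _ : Algebra (ZMod p) K := ZMod.algebra K p
  let b := Module.finBasis (ZMod p) K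
  set r := Module.finrank (ZMod p) K
  let φ : K →+* Matrix (Fin r) (Fin r) L :=
    (ZMod.castHom (dvd_refl p) L).mapMatrix.comp (Algebra.leftMulMatrix b).toRingHom
  have hr : 0 < r := Module.finrank_pos
  have : Nonempty (Fin r) := ⟨⟨0, hr⟩⟩
  have hφ : Function.Injective φ := φ.injective
  let R := MonoidAlgebra L G
  let Φ : MonoidAlgebra K G →+* Matrix (Fin r) (Fin r) R := MonoidAlgebra.liftNCRingHom
    ((algebraMap L R).mapMatrix.comp φ)
    ((Matrix.scalar (Fin r)).toMonoidHom.comp (MonoidAlgebra.of L G)) (by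
      intro x g
      refine (Matrix.scalar_commute_iff.2 ?_).symm
      ext1 i j
      simp only [Matrix.smul_apply, smul_eq_mul, RingHom.comp_apply, RingHom.mapMatrix_apply,
        Matrix.map_apply, op_smul_eq_mul]
      rw [Algebra.commutes])
  have hΦ : ∀ x i j g, (Φ x i j).coeff g = φ (x.coeff g) i j := by
    intro x i j g
    induction x using MonoidAlgebra.induction_linear with
    | zero => simp
    | add x y hx hy =>
      simp only [map_add, Matrix.add_apply, MonoidAlgebra.coeff_add, Finsupp.add_apply]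
      rw [← hx, ← hy]
      rfl
    | single g' c =>
      simp only [Φ, MonoidAlgebra.liftNCRingHom_single]
      by_cases hg : g' = g
      · simp [hg, R]
      · simp [hg, R]
  have hinj : Function.Injective Φ := by
    intro x y hxy
    ext g
    apply hφ
    ext i j
    rw [← hΦ, ← hΦ, hxy]
  exact ⟨r, (h.map Φ.mapMatrix (Matrix.map_injective hinj)).map (Matrix.compRingEquiv _ _ _)
    (Matrix.compRingEquiv _ _ _).injective⟩

theorem ndf_finitely_presented (L : Type*) [Field L] (G : Type) [Group G]
    (h : NDF (MonoidAlgebra L G)) :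
    ∃ (G' : Type) (_ : Group G'), Group.IsFinitelyPresented G' ∧ NDF (MonoidAlgebra L G') := by
  obtain ⟨a, b, h1, h2⟩ := h
  let T : Finset G := insert 1 (a.coeff.support ∪ b.coeff.support ∪
    Finset.image₂ (· * ·) a.coeff.support b.coeff.support)
  let σ0 : G → FreeGroup T := fun g => if h : g ∈ T then FreeGroup.of ⟨g, h⟩ else 1
  let rels : Set (FreeGroup T) := insert (σ0 1)
    (Set.image2 (fun x y => (σ0 (x * y))⁻¹ * (σ0 x * σ0 y)) a.coeff.support b.coeff.support)
  have : Finite rels :=
    Set.Finite.insert _ (Set.Finite.image2 _ (Finset.finite_toSet _) (Finset.finite_toSet _))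
  let G' := PresentedGroup rels
  let σ : G → G' := fun g => PresentedGroup.mk rels (σ0 g)
  have hl : ∀ g ∈ T, FreeGroup.lift (fun x : T => (x : G)) (σ0 g) = g := by
    intro g hg
    simp [σ0, hg]
  have ma : ∀ x ∈ a.coeff.support, x ∈ T := fun x hx => by simp only [T]; grind
  have mb : ∀ x ∈ b.coeff.support, x ∈ T := fun x hx => by simp only [T]; grind
  have mab : ∀ x ∈ a.coeff.support, ∀ y ∈ b.coeff.support, x * y ∈ T := fun x hx y hy =>
    Finset.mem_insert_of_mem (Finset.mem_union_right _ (Finset.mem_image₂_of_mem hx hy))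
  have hrel : ∀ r ∈ rels, FreeGroup.lift (fun x : T => (x : G)) r = 1 := by
    rintro r (rfl | ⟨x, hx, y, hy, rfl⟩)
    · exact hl 1 (Finset.mem_insert_self _ _)
    · simp only [map_mul, map_inv]
      rw [hl _ (ma x hx), hl _ (mb y hy), hl _ (mab x hx y hy), inv_mul_cancel]
  let π : G' →* G := PresentedGroup.toGroup hrel
  have hπ : ∀ g ∈ T, π (σ g) = g := hl
  have hσ1 : σ 1 = 1 := PresentedGroup.one_of_mem (Set.mem_insert _ _)
  have hσ : ∀ x ∈ a.coeff.support, ∀ y ∈ b.coeff.support, σ (x * y) = σ x * σ y := by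
    intro x hx y hy
    have := PresentedGroup.mk_eq_mk_of_inv_mul_mem (rels := rels)
      (Set.mem_insert_of_mem _ ⟨x, hx, y, hy, rfl⟩)
    simpa [σ] using this
  let m : MonoidAlgebra L G →+ MonoidAlgebra L G' :=
    { toFun := MonoidAlgebra.mapDomain σ
      map_zero' := MonoidAlgebra.mapDomain_zero _
      map_add' := MonoidAlgebra.mapDomain_add _ }
  have hm : ∀ g c, m (MonoidAlgebra.single g c) = MonoidAlgebra.single (σ g) c :=
    fun g c => MonoidAlgebra.mapDomain_single
  have hexp : ∀ x : MonoidAlgebra L G,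
      x = ∑ g ∈ x.coeff.support, MonoidAlgebra.single g (x.coeff g) :=
    fun x => (MonoidAlgebra.sum_coeff_single x).symm
  have hback : ∀ x : MonoidAlgebra L G, (∀ g ∈ x.coeff.support, g ∈ T) →
      MonoidAlgebra.mapDomainRingHom L π (m x) = x := by
    intro x hx
    conv_lhs => rw [hexp x]
    conv_rhs => rw [hexp x]
    simp only [map_sum, hm, MonoidAlgebra.mapDomainRingHom_apply, MonoidAlgebra.mapDomain_single]
    exact Finset.sum_congr rfl fun g hg => by rw [hπ g (hx g hg)]
  refine ⟨G', inferInstance, inferInstance, m a, m b, ?_, fun h => h2 ?_⟩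
  · have : m a * m b = m (a * b) := by
      conv_lhs => rw [hexp a, hexp b]
      conv_rhs => rw [hexp a, hexp b]
      simp only [map_sum, hm, Finset.sum_mul_sum, MonoidAlgebra.single_mul_single]
      rw [Finset.sum_mul_sum]
      refine Finset.sum_congr rfl fun x hx => Finset.sum_congr rfl fun y hy => ?_
      rw [hσ x hx y hy]
      exact MonoidAlgebra.single_mul_single _ _ _ _
    rw [this, h1, MonoidAlgebra.one_def, hm, hσ1, MonoidAlgebra.one_def]
  · have := congrArg (MonoidAlgebra.mapDomainRingHom L π) h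
    rwa [map_mul, hback a ma, hback b mb, map_one] at this

end Vale.Agent.P194
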