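import Vale.Agent.P194.Algebra
import Vale.Agent.P194.Units

namespace Vale.Agent.P194

open Classical

theorem main_group (p : ℕ) [Fact p.Prime] (L : Type*) [Field L] [CharP L p] :
    ∃ (G : Type) (_ : Group G), Group.IsFinitelyPresented G ∧
      ∃ a b : MonoidAlgebra L G, a * b = 1 ∧ b * a ≠ 1 := by
  obtain ⟨K, _, _, _, S, V, _, Γ, g, D, G, _, gl, -, -, -, -, -, -, -, h⟩ := main_matrix p
  obtain ⟨r, h1⟩ := ndf_change_field p K L G S h
  obtain ⟨G', _, h2⟩ := ndf_group_of_matrix p L G _ h1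
  exact ndf_finitely_presented L G' h2

end Vale.Agent.P194
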