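import Vale.Agent.P194.Basic

/-
One step of the level-wise gluing construction for graphical small cancellation.
-/

namespace Vale.Agent.P194

open Classical

section Defs
variable {X Y Λ V : Type}

/-- Label preserving maps. -/
def Mor (E : X → Λ → X → Prop) (E' : Y → Λ → Y → Prop) (f : X → Y) : Prop :=
  ∀ x a y, E x a y → E' (f x) a (f y)

/-- A copy of the relator graph passes through `x` at position `v`. -/
def Full (Γ : V → Λ → V → Prop) (E : X → Λ → X → Prop) (x : X) (v : V) : Prop :=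
  ∃ f : V → X, Mor Γ E f ∧ f v = x

/-- Geodesic paths. -/
def Geo (E : X → Λ → X → Prop) (x : X) (w : List Λ) (y : X) : Prop :=
  Path E x w y ∧ ∀ w', Path E x w' y → w.length ≤ w'.length

/-- Restriction of a graph to a set of vertices. -/
def Res (E : X → Λ → X → Prop) (p : X → Prop) : X → Λ → X → Prop :=
  fun x a y => E x a y ∧ p x ∧ p y

/-- Hypotheses on the relator graph. -/
structure Good (ι : Λ → Λ) (Γ : V → Λ → V → Prop) (P g D : ℕ) : Prop where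
  invol : ∀ a, ι (ι a) = a
  symm : Symm ι Γ
  det : Det Γ
  girth : Girth ι Γ g
  piece : Piece ι Γ P
  pos : 1 ≤ P
  big : 30 * P < g
  diam : ∀ u w u', Path Γ u w u' → ∃ w', w'.length ≤ D ∧ Path Γ u w' u'

/-- The invariant of the construction. -/
structure GoodX (ι : Λ → Λ) (Γ : V → Λ → V → Prop) (P : ℕ) (E : X → Λ → X → Prop) : Prop where
  symm : Symm ι E
  det : Det E
  inv : ∀ x v, Full Γ E x v ∨
    ∀ w x' v', Red ι w → Path E x w x' → Path Γ v w v' → w.length ≤ 2 * P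

theorem Symm.res {ι : Λ → Λ} {E : X → Λ → X → Prop} (h : Symm ι E) (p : X → Prop) :
    Symm ι (Res E p) := fun _ _ _ hh => ⟨h _ _ _ hh.1, hh.2.2, hh.2.1⟩

theorem Det.res {E : X → Λ → X → Prop} (h : Det E) (p : X → Prop) : Det (Res E p) :=
  fun _ _ _ _ h1 h2 => h _ _ _ _ h1.1 h2.1

theorem Path.of_res {E : X → Λ → X → Prop} {p : X → Prop} {x y : X} {w : List Λ}
    (h : Path (Res E p) x w y) : Path E x w y := h.mono (fun _ _ _ h => h.1)

theorem Path.res_end {E : X → Λ → X → Prop} {p : X → Prop} {x y : X} {w : List Λ}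
    (h : Path (Res E p) x w y) (hx : p x) : p y := by
  induction h with
  | nil x => exact hx
  | cons h1 _ ih => exact ih h1.2.2

theorem Geo.left {E : X → Λ → X → Prop} {x y z : X} {w w' : List Λ}
    (h : Geo E x (w ++ w') z) (h1 : Path E x w y) (h2 : Path E y w' z) : Geo E x w y := by
  refine ⟨h1, fun r hr => ?_⟩
  have := h.2 _ (hr.append h2)
  simp at this
  omega

theorem Geo.right {E : X → Λ → X → Prop} {x y z : X} {w w' : List Λ}
    (h : Geo E x (w ++ w') z) (h1 : Path E x w y) (h2 : Path E y w' z) : Geo E y w' z := by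
  refine ⟨h2, fun r hr => ?_⟩
  have := h.2 _ (h1.append hr)
  simp at this
  omega

theorem Geo.tail {E : X → Λ → X → Prop} {x y z : X} {a : Λ} {w : List Λ}
    (h : Geo E x (a :: w) z) (h1 : E x a y) (h2 : Path E y w z) : Geo E y w z :=
  Geo.right (w := [a]) h (Path.single h1) h2

theorem Geo.inv {ι : Λ → Λ} {E : X → Λ → X → Prop} (hs : Symm ι E) {x y : X} {w : List Λ}
    (h : Geo E x w y) : Geo E y (winv ι w) x := by
  refine ⟨h.1.inv hs, fun r hr => ?_⟩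
  simpa using h.2 _ (hr.inv hs)

theorem Geo.red {ι : Λ → Λ} {E : X → Λ → X → Prop} (hs : Symm ι E) (hd : Det E) {x y : X}
    {w : List Λ} (h : Geo E x w y) : Red ι w := by
  induction w generalizing x with
  | nil => exact red_nil
  | cons a w ih =>
    obtain ⟨x1, h1, h2⟩ := path_cons_iff.1 h.1
    have ht := ih (h.tail h1 h2)
    cases w with
    | nil => exact red_single _
    | cons b w =>
      refine red_cons_cons.2 ⟨?_, ht⟩
      rintro rfl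
      obtain ⟨x2, h3, h4⟩ := path_cons_iff.1 h2
      rw [hd _ _ _ _ h3 (hs _ _ _ h1)] at h4
      have := h.2 _ h4
      simp at this

theorem exists_geo {E : X → Λ → X → Prop} {x y : X} {w : List Λ} (h : Path E x w y) :
    ∃ w', Geo E x w' y := by
  have hex : ∃ n, ∃ w' : List Λ, w'.length = n ∧ Path E x w' y := ⟨_, w, rfl, h⟩
  obtain ⟨w', hw', hp⟩ := Nat.find_spec hex
  refine ⟨w', hp, fun r hr => ?_⟩
  rw [hw']
  exact Nat.find_min' hex ⟨r, rfl, hr⟩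

theorem Full.step {Γ : V → Λ → V → Prop} {E : X → Λ → X → Prop} (hd : Det E) {x x' : X}
    {v v' : V} {w : List Λ} (h : Full Γ E x v) (h1 : Path E x w x') (h2 : Path Γ v w v') :
    Full Γ E x' v' := by
  obtain ⟨f, hf, rfl⟩ := h
  exact ⟨f, hf, (h2.map f hf).det hd h1⟩

end Defs

section Construction
variable {X Λ V : Type} (ι : Λ → Λ) (Γ : V → Λ → V → Prop) (P : ℕ) (E : X → Λ → X → Prop)

/-- A component of the part of the product graph which is not full. -/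
def IsCell (Y : Set (X × V)) : Prop :=
  ∃ p : X × V, ¬ Full Γ E p.1 p.2 ∧ Y = {q | ∃ w, Path (Prod2 E Γ) p w q}

/-- The letter `a` leads upwards from the point with name `(x, w)`. -/
def Up (x : X) : List Λ → Λ → Prop
  | [], a => ¬ ∃ x', E x a x'
  | b :: _, a => b ≠ a

/-- `Nm Y x u w`: the word `w` leads from `u` down to a root vertex of `Y` lying over `x`. -/
inductive Nm (Y : Set (X × V)) (x : X) : V → List Λ → Prop
  | root {v : V} : (x, v) ∈ Y → Nm Y x v []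
  | cons {u v : V} {a : Λ} {w : List Λ} :
      Nm Y x v w → Γ u a v → Up E x w (ι a) → Nm Y x u (a :: w)

/-- The vertices of the next level. -/
abbrev Nxt (X Λ V : Type) : Type := (X × List Λ) ⊕ (Set (X × V) × V)

/-- The gluing map of a cell. -/
noncomputable def cellMap (Y : Set (X × V)) (u : V) : Nxt X Λ V :=
  if h : ∃ n : X × List Λ, Nm ι Γ E Y n.1 u n.2 ∧ n.2.length ≤ P then Sum.inl h.choose
  else Sum.inr (Y, u)

/-- The embedding into the next level. -/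
def emb (V : Type) (Λ : Type) (x : X) : Nxt X Λ V := Sum.inl (x, [])

/-- The edges of the next level. -/
def nxtE (z : Nxt X Λ V) (a : Λ) (z' : Nxt X Λ V) : Prop :=
  (∃ x x', E x a x' ∧ z = emb V Λ x ∧ z' = emb V Λ x') ∨
    ∃ Y u u', IsCell Γ E Y ∧ Γ u a u' ∧ z = cellMap ι Γ P E Y u ∧ z' = cellMap ι Γ P E Y u'

/-- Anchors. -/
def Anc (z : Nxt X Λ V) (x : X) : Prop :=
  ∃ Y u v, IsCell Γ E Y ∧ z = cellMap ι Γ P E Y u ∧ (x, v) ∈ Y

/-- Points carrying some pair which is not full. -/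
def NF (x : X) : Prop := ∃ v, ¬ Full Γ E x v

variable {ι Γ P E}
variable {g D : ℕ} (hΓ : Good ι Γ P g D) (hE : GoodX ι Γ P E)
include hΓ hE

theorem IsCell.conn {Y : Set (X × V)} (hY : IsCell Γ E Y) {q q' : X × V} (hq : q ∈ Y)
    (hq' : q' ∈ Y) : ∃ w, Path (Prod2 E Γ) q w q' := by
  obtain ⟨p, -, rfl⟩ := hY
  obtain ⟨w, hw⟩ := hq
  obtain ⟨w', hw'⟩ := hq'
  exact ⟨_, (hw.inv (hE.symm.prod2 hΓ.symm)).append hw'⟩

theorem IsCell.notFull {Y : Set (X × V)} (hY : IsCell Γ E Y) {q : X × V} (hq : q ∈ Y) :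
    ¬ Full Γ E q.1 q.2 := by
  obtain ⟨p, hp, rfl⟩ := hY
  obtain ⟨w, hw⟩ := hq
  intro h
  have := path_prod2_iff.1 (hw.inv (hE.symm.prod2 hΓ.symm))
  exact hp (h.step hE.det this.1 this.2)

omit hΓ hE in
theorem IsCell.closed {Y : Set (X × V)} (hY : IsCell Γ E Y) {q q' : X × V} (hq : q ∈ Y)
    {w : List Λ} (h : Path (Prod2 E Γ) q w q') : q' ∈ Y := by
  obtain ⟨p, -, rfl⟩ := hY
  obtain ⟨w', hw'⟩ := hq
  exact ⟨_, hw'.append h⟩

theorem IsCell.eq {Y Y' : Set (X × V)} (hY : IsCell Γ E Y) (hY' : IsCell Γ E Y') {q : X × V}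
    (hq : q ∈ Y) (hq' : q ∈ Y') : Y = Y' := by
  ext r
  constructor
  · intro hr
    obtain ⟨w, hw⟩ := hY.conn hΓ hE hq hr
    exact hY'.closed hq' hw
  · intro hr
    obtain ⟨w, hw⟩ := hY'.conn hΓ hE hq' hr
    exact hY.closed hq hw

omit hΓ hE in
theorem IsCell.nonempty {Y : Set (X × V)} (hY : IsCell Γ E Y) : ∃ x v, (x, v) ∈ Y := by
  obtain ⟨p, -, rfl⟩ := hY
  exact ⟨p.1, p.2, [], Path.nil _⟩

omit hΓ hE in
theorem exists_cell {x : X} {v : V} (h : ¬ Full Γ E x v) : ∃ Y, IsCell Γ E Y ∧ (x, v) ∈ Y :=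
  ⟨_, ⟨(x, v), h, rfl⟩, [], Path.nil _⟩

theorem IsCell.short {Y : Set (X × V)} (hY : IsCell Γ E Y) {q q' : X × V} (hq : q ∈ Y)
    (hq' : q' ∈ Y) : ∃ w, Red ι w ∧ w.length ≤ 2 * P ∧ Path (Prod2 E Γ) q w q' := by
  obtain ⟨w, hw⟩ := hY.conn hΓ hE hq hq'
  obtain ⟨w', hr, -, hp⟩ := hw.exists_red (hE.symm.prod2 hΓ.symm) (hE.det.prod2 hΓ.det)
  refine ⟨w', hr, ?_, hp⟩
  rcases hE.inv q.1 q.2 with h | h
  · exact absurd h (hY.notFull hΓ hE hq)
  · have := path_prod2_iff.1 hp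
    exact h _ _ _ hr this.1 this.2

theorem IsCell.shortNF {Y : Set (X × V)} (hY : IsCell Γ E Y) {q q' : X × V} (hq : q ∈ Y)
    (hq' : q' ∈ Y) : ∃ w : List Λ, w.length ≤ 2 * P ∧ Path (Res E (NF Γ E)) q.1 w q'.1 := by
  obtain ⟨w, -, hl, hp⟩ := hY.short hΓ hE hq hq'
  refine ⟨w, hl, ?_⟩
  clear hl hq'
  induction hp with
  | nil x => exact Path.nil _
  | @cons x y z a w h1 h2 ih =>
    have hy : y ∈ Y := hY.closed hq (Path.single h1)
    exact Path.cons ⟨h1.1, ⟨_, hY.notFull hΓ hE hq⟩, ⟨_, hY.notFull hΓ hE hy⟩⟩ (ih hy)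

omit hΓ hE in
theorem Nm.spec {Y : Set (X × V)} {x : X} {u : V} {w : List Λ} (h : Nm ι Γ E Y x u w) :
    Red ι w ∧ (∀ b ∈ w.getLast?, ¬ ∃ x', E x (ι b) x') ∧ ∃ v, (x, v) ∈ Y ∧ Path Γ u w v := by
  induction h with
  | root hv => exact ⟨red_nil, by simp, _, hv, Path.nil _⟩
  | @cons u v a w _ h2 h3 ih =>
    obtain ⟨hr, hl, v', hv', hp⟩ := ih
    refine ⟨?_, ?_, v', hv', Path.cons h2 hp⟩
    · cases w with
      | nil => exact red_single _
      | cons b w => exact red_cons_cons.2 ⟨h3, hr⟩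
    · cases w with
      | nil =>
        intro b hb
        simp at hb
        rw [← hb]
        exact h3
      | cons b w =>
        intro c hc
        rw [List.getLast?_cons_cons] at hc
        exact hl c hc

theorem Nm.unique {Y : Set (X × V)} (hY : IsCell Γ E Y) {x x' : X} {u : V} {w w' : List Λ}
    (h : Nm ι Γ E Y x u w) (h' : Nm ι Γ E Y x' u w') (hl : w.length + w'.length + 2 * P < g) :
    x = x' ∧ w = w' := by
  obtain ⟨hr, hlast, v, hv, hp⟩ := h.spec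
  obtain ⟨hr', hlast', v', hv', hp'⟩ := h'.spec
  obtain ⟨r, hrr, hrl, hrp⟩ := hY.short hΓ hE hv hv'
  obtain ⟨hr1, hr2⟩ := path_prod2_iff.1 hrp
  simp only at hr1 hr2
  have hred : Red ι (w ++ r) := by
    refine red_append_iff.2 ⟨hr, hrr, ?_⟩
    intro a ha b hb hab
    cases r with
    | nil => simp at hb
    | cons c r =>
      simp at hb
      obtain ⟨y, hy, -⟩ := path_cons_iff.1 hr1
      apply hlast a ha
      rw [← hab, ← hb]
      exact ⟨y, hy⟩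
  have heq : w ++ r = w' :=
    hΓ.girth.eq_of_paths hΓ.invol hΓ.symm hΓ.det hred hr' (hp.append hr2) hp'
      (by simp; omega)
  rcases List.eq_nil_or_concat r with rfl | ⟨r', b, rfl⟩
  · exact ⟨path_nil_iff.1 hr1, by simpa using heq⟩
  · exfalso
    rw [List.concat_eq_append] at hr1 heq
    obtain ⟨y, -, hy⟩ := path_append_iff.1 hr1
    obtain ⟨y', hy', hy''⟩ := path_cons_iff.1 hy
    rw [path_nil_iff.1 hy''] at hy'
    apply hlast' b
    · rw [← heq, ← List.append_assoc]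
      simp
    · exact ⟨y, hE.symm _ _ _ hy'⟩

theorem cellMap_low {Y : Set (X × V)} (hY : IsCell Γ E Y) {x : X} {u : V} {w : List Λ}
    (h : Nm ι Γ E Y x u w) (hl : w.length ≤ P) : cellMap ι Γ P E Y u = Sum.inl (x, w) := by
  have hex : ∃ n : X × List Λ, Nm ι Γ E Y n.1 u n.2 ∧ n.2.length ≤ P := ⟨(x, w), h, hl⟩
  unfold cellMap
  rw [dif_pos hex]
  obtain ⟨h1, h2⟩ := hex.choose_spec
  have := h1.unique hΓ hE hY h (by have := hΓ.big; omega)
  congr 1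
  exact Prod.ext this.1 this.2

theorem cellMap_high {Y : Set (X × V)} (hY : IsCell Γ E Y) {x : X} {u : V} {w : List Λ}
    (h : Nm ι Γ E Y x u w) (hl : P < w.length) (hl' : w.length + 3 * P < g) :
    cellMap ι Γ P E Y u = Sum.inr (Y, u) := by
  unfold cellMap
  rw [dif_neg]
  rintro ⟨n, h1, h2⟩
  have := h1.unique hΓ hE hY h (by omega)
  rw [this.2] at h2
  omega

omit hΓ hE in
theorem cellMap_eq_inl {Y : Set (X × V)} {x : X} {u : V} {w : List Λ}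
    (h : cellMap ι Γ P E Y u = Sum.inl (x, w)) : Nm ι Γ E Y x u w ∧ w.length ≤ P := by
  unfold cellMap at h
  split_ifs at h with hex
  have h1 := hex.choose_spec
  have : hex.choose = (x, w) := Sum.inl.inj h
  rw [this] at h1
  exact h1

omit hΓ hE in
theorem cellMap_eq_inr {Y Y' : Set (X × V)} {u u' : V}
    (h : cellMap ι Γ P E Y u = Sum.inr (Y', u')) : Y = Y' ∧ u = u' := by
  unfold cellMap at h
  split_ifs at h with hex
  have := Sum.inr.inj h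
  exact ⟨congrArg Prod.fst this, congrArg Prod.snd this⟩

omit hΓ hE in
theorem cellMap_mor {Y : Set (X × V)} (hY : IsCell Γ E Y) :
    Mor Γ (nxtE ι Γ P E) (cellMap ι Γ P E Y) :=
  fun u _ u' h => Or.inr ⟨Y, u, u', hY, h, rfl, rfl⟩

omit hΓ hE in
theorem emb_mor : Mor E (nxtE ι Γ P E) (emb V Λ) :=
  fun x _ x' h => Or.inl ⟨x, x', h, rfl, rfl⟩

theorem cellMap_root {Y : Set (X × V)} (hY : IsCell Γ E Y) {x : X} {v : V} (h : (x, v) ∈ Y) :
    cellMap ι Γ P E Y v = emb V Λ x :=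
  cellMap_low hΓ hE hY (Nm.root h) (Nat.zero_le _)

omit hE in
theorem Nm.step {Y : Set (X × V)} (hY : IsCell Γ E Y) {x : X} {u u1 : V} {w : List Λ} {a : Λ}
    (h : Nm ι Γ E Y x u w) (h1 : Γ u a u1) :
    (w = [] ∧ ∃ x1, E x a x1 ∧ Nm ι Γ E Y x1 u1 []) ∨
      (∃ w', w = a :: w' ∧ Nm ι Γ E Y x u1 w') ∨
      (Up E x w a ∧ Nm ι Γ E Y x u1 (ι a :: w)) := by
  have hup : Up E x w a → Nm ι Γ E Y x u1 (ι a :: w) := fun hu =>
    Nm.cons h (hΓ.symm _ _ _ h1) (by rw [hΓ.invol]; exact hu)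
  cases h with
  | root hv =>
    by_cases hx : ∃ x', E x a x'
    · obtain ⟨x1, hx1⟩ := hx
      exact Or.inl ⟨rfl, x1, hx1, Nm.root (hY.closed hv (Path.single (y := (x1, u1)) ⟨hx1, h1⟩))⟩
    · exact Or.inr (Or.inr ⟨hx, hup hx⟩)
  | @cons _ v b w' h2 h3 h4 =>
    by_cases hb : b = a
    · subst hb
      rw [← hΓ.det _ _ _ _ h3 h1]
      exact Or.inr (Or.inl ⟨w', rfl, h2⟩)
    · exact Or.inr (Or.inr ⟨hb, hup hb⟩)

omit hE in
theorem nxtE_symm (hs : Symm ι E) : Symm ι (nxtE ι Γ P E) := by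
  rintro z a z' (⟨x, x', h, rfl, rfl⟩ | ⟨Y, u, u', hY, h, rfl, rfl⟩)
  · exact Or.inl ⟨x', x, hs _ _ _ h, rfl, rfl⟩
  · exact Or.inr ⟨Y, u', u, hY, hΓ.symm _ _ _ h, rfl, rfl⟩

omit hΓ hE in
/-- Edges at a high point lift. -/
theorem nxtE_high {Y : Set (X × V)} {u : V} {a : Λ} {z' : Nxt X Λ V}
    (h : nxtE ι Γ P E (Sum.inr (Y, u)) a z') :
    IsCell Γ E Y ∧ ∃ u', Γ u a u' ∧ z' = cellMap ι Γ P E Y u' := by
  rcases h with ⟨x, x', h, h1, -⟩ | ⟨Y', u0, u', hY, h, h1, rfl⟩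
  · simp [emb] at h1
  · obtain ⟨rfl, rfl⟩ := cellMap_eq_inr h1.symm
    exact ⟨hY, u', h, rfl⟩

/-- Edges at a low point. -/
theorem nxtE_low {x : X} {w : List Λ} {a : Λ} {z' : Nxt X Λ V}
    (h : nxtE ι Γ P E (Sum.inl (x, w)) a z') :
    (w = [] ∧ ∃ x1, E x a x1 ∧ z' = emb V Λ x1) ∨
      (∃ w', w = a :: w' ∧ z' = Sum.inl (x, w')) ∨
      (Up E x w a ∧ w.length ≤ P ∧ ∃ Y u', IsCell Γ E Y ∧ z' = cellMap ι Γ P E Y u' ∧
        Nm ι Γ E Y x u' (ι a :: w)) := by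
  rcases h with ⟨x0, x', h, h1, rfl⟩ | ⟨Y, u, u', hY, h, h1, rfl⟩
  · simp [emb] at h1
    obtain ⟨rfl, rfl⟩ := h1
    exact Or.inl ⟨rfl, x', h, rfl⟩
  · obtain ⟨hn, hl⟩ := cellMap_eq_inl h1.symm
    rcases hn.step hΓ hY h with ⟨rfl, x1, h2, h3⟩ | ⟨w', rfl, h3⟩ | ⟨h2, h3⟩
    · exact Or.inl ⟨rfl, x1, h2, cellMap_low hΓ hE hY h3 (Nat.zero_le _)⟩
    · exact Or.inr (Or.inl ⟨w', rfl, cellMap_low hΓ hE hY h3 (by simp at hl; omega)⟩)
    · exact Or.inr (Or.inr ⟨h2, hl, Y, u', hY, rfl, h3⟩)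

theorem nxtE_det : Det (nxtE ι Γ P E) := by
  rintro (⟨x, w⟩ | ⟨Y, u⟩) a z1 z2 h1 h2
  · rcases nxtE_low hΓ hE h1 with ⟨rfl, x1, e1, rfl⟩ | ⟨w1, rfl, rfl⟩ |
      ⟨hu1, hl, Y1, u1, hY1, rfl, n1⟩
    · rcases nxtE_low hΓ hE h2 with ⟨-, x2, e2, rfl⟩ | ⟨w2, e2, -⟩ | ⟨hu2, -⟩
      · rw [hE.det _ _ _ _ e1 e2]
      · simp at e2
      · exact absurd ⟨x1, e1⟩ hu2
    · rcases nxtE_low hΓ hE h2 with ⟨e2, -⟩ | ⟨w2, e2, rfl⟩ | ⟨hu2, -⟩
      · simp at e2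
      · simp at e2
        rw [e2]
      · exact absurd rfl hu2
    · rcases nxtE_low hΓ hE h2 with ⟨rfl, x2, e2, rfl⟩ | ⟨w2, rfl, rfl⟩ |
        ⟨-, -, Y2, u2, hY2, rfl, n2⟩
      · exact absurd ⟨x2, e2⟩ hu1
      · exact absurd rfl hu1
      · by_cases hlt : w.length + 1 ≤ P
        · rw [cellMap_low hΓ hE hY1 n1 (by simpa using hlt),
            cellMap_low hΓ hE hY2 n2 (by simpa using hlt)]
        · obtain ⟨hr, -, v1, hv1, p1⟩ := n1.spec
          obtain ⟨-, -, v2, hv2, p2⟩ := n2.spec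
          have hu : u1 = u2 := hΓ.piece _ _ _ _ _ hr (by simp; omega) p1 p2
          subst hu
          have hv : v1 = v2 := p1.det hΓ.det p2
          subst hv
          rw [hY1.eq hΓ hE hY2 hv1 hv2]
  · obtain ⟨-, u1, e1, rfl⟩ := nxtE_high h1
    obtain ⟨-, u2, e2, rfl⟩ := nxtE_high h2
    rw [hΓ.det _ _ _ _ e1 e2]

theorem nxt_full (x : X) (v : V) : Full Γ (nxtE ι Γ P E) (emb V Λ x) v := by
  by_cases h : Full Γ E x v
  · obtain ⟨f, hf, rfl⟩ := h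
    exact ⟨fun u => emb V Λ (f u), fun u a u' hu => emb_mor _ _ _ (hf _ _ _ hu), rfl⟩
  · obtain ⟨Y, hY, hx⟩ := exists_cell h
    exact ⟨_, cellMap_mor hY, cellMap_root hΓ hE hY hx⟩

theorem emb_ind {x y : X} {a : Λ} (h : nxtE ι Γ P E (emb V Λ x) a (emb V Λ y)) : E x a y := by
  rcases nxtE_low hΓ hE h with ⟨-, x1, e1, e2⟩ | ⟨w1, e1, -⟩ | ⟨-, -, Y, u, hY, e, n⟩
  · simp [emb] at e2
    rw [e2]
    exact e1
  · simp at e1
  · rw [cellMap_low hΓ hE hY n (by simpa using hΓ.pos)] at e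
    simp [emb] at e

theorem Nm.down {Y : Set (X × V)} (hY : IsCell Γ E Y) {x : X} {u : V} {w : List Λ}
    (h : Nm ι Γ E Y x u w) : Path (nxtE ι Γ P E) (cellMap ι Γ P E Y u) w (emb V Λ x) := by
  obtain ⟨-, -, v, hv, hp⟩ := h.spec
  rw [← cellMap_root hΓ hE hY hv]
  exact hp.map _ (cellMap_mor hY)

/-- Going up along a short reduced path. -/
theorem up_path {x : X} {r : List Λ} :
    ∀ {w : List Λ} {b : Λ} {Y : Set (X × V)} {u : V} {z' : Nxt X Λ V}, IsCell Γ E Y →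
      Nm ι Γ E Y x u (b :: w) → Path (nxtE ι Γ P E) (cellMap ι Γ P E Y u) r z' → Red ι r →
      (∀ c ∈ r.head?, c ≠ b) → r.length + w.length + 1 + 3 * P < g →
      ∃ Y' u', IsCell Γ E Y' ∧ z' = cellMap ι Γ P E Y' u' ∧
        Nm ι Γ E Y' x u' (winv ι r ++ b :: w) := by
  induction r with
  | nil =>
    intro w b Y u z' hY hn hp _ _ _
    exact ⟨Y, u, hY, (path_nil_iff.1 hp).symm, hn⟩
  | cons a r ih =>
    intro w b Y u z' hY hn hp hr hb hl
    obtain ⟨z1, h1, h2⟩ := path_cons_iff.1 hp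
    have hab : b ≠ a := fun h => hb a (by simp) h.symm
    have key : ∃ Y1 u1, IsCell Γ E Y1 ∧ z1 = cellMap ι Γ P E Y1 u1 ∧
        Nm ι Γ E Y1 x u1 (ι a :: b :: w) := by
      by_cases hlt : (b :: w).length ≤ P
      · rw [cellMap_low hΓ hE hY hn hlt] at h1
        rcases nxtE_low hΓ hE h1 with ⟨e, -⟩ | ⟨w', e, -⟩ | ⟨-, -, h⟩
        · simp at e
        · simp at e
          exact absurd e.1 hab
        · exact h
      · rw [cellMap_high hΓ hE hY hn (by omega) (by simp at hl ⊢; omega)] at h1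
        obtain ⟨-, u1, e1, rfl⟩ := nxtE_high h1
        refine ⟨Y, u1, hY, rfl, Nm.cons hn (hΓ.symm _ _ _ e1) ?_⟩
        rw [hΓ.invol]
        exact hab
    obtain ⟨Y1, u1, hY1, rfl, n1⟩ := key
    obtain ⟨Y', u', hY', e', n'⟩ := ih hY1 n1 h2 hr.tail (red_cons_iff.1 hr).1
      (by simp at hl ⊢; omega)
    exact ⟨Y', u', hY', e', by simpa using n'⟩

/-- A path lifting to a cell. -/
def LiftP (ι : Λ → Λ) (Γ : V → Λ → V → Prop) (P : ℕ) (E : X → Λ → X → Prop)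
    (Y : Set (X × V)) (z : Nxt X Λ V) (w : List Λ) (z' : Nxt X Λ V) : Prop :=
  ∃ u u', z = cellMap ι Γ P E Y u ∧ Path Γ u w u' ∧ z' = cellMap ι Γ P E Y u'

theorem up_short {x : X} {w r : List Λ} {a : Λ} {z' : Nxt X Λ V}
    (hp : Path (nxtE ι Γ P E) (Sum.inl (x, w)) (a :: r) z') (hr : Red ι (a :: r))
    (hu : Up E x w a) (hl : r.length + 1 + 4 * P < g) :
    ∃ Y, IsCell Γ E Y ∧ (∃ v, (x, v) ∈ Y) ∧ LiftP ι Γ P E Y (Sum.inl (x, w)) (a :: r) z' ∧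
      z' ∉ Set.range (emb (X := X) V Λ) := by
  obtain ⟨z1, h1, h2⟩ := path_cons_iff.1 hp
  rcases nxtE_low hΓ hE h1 with ⟨rfl, x1, e, -⟩ | ⟨w', rfl, -⟩ | ⟨-, hw, Y, u, hY, rfl, n⟩
  · exact absurd ⟨x1, e⟩ hu
  · exact absurd rfl hu
  · obtain ⟨Y', u', hY', rfl, n'⟩ := up_path hΓ hE hY n h2 hr.tail (red_cons_iff.1 hr).1
      (by omega)
    obtain ⟨-, -, v, hv, hpv⟩ := n'.spec
    have e : winv ι r ++ ι a :: w = winv ι (a :: r) ++ w := by simp
    rw [e] at hpv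
    obtain ⟨u0, q1, -⟩ := path_append_iff.1 hpv
    refine ⟨Y', hY', ⟨v, hv⟩, ⟨u0, u', ?_, ?_, rfl⟩, ?_⟩
    · exact (hp.inv (nxtE_symm hΓ hE.symm)).det (nxtE_det hΓ hE) (q1.map _ (cellMap_mor hY'))
    · have := q1.inv hΓ.symm
      rwa [winv_winv hΓ.invol] at this
    · rintro ⟨y, hy⟩
      obtain ⟨n'', -⟩ := cellMap_eq_inl hy.symm
      have := (n''.unique hΓ hE hY' n' (by simp; omega)).2
      simp at this

/-- Two low points of one cell are close. -/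
theorem low_close {Y : Set (X × V)} (hY : IsCell Γ E Y) {u u' : V} {n n' : X × List Λ}
    (h : cellMap ι Γ P E Y u = Sum.inl n) (h' : cellMap ι Γ P E Y u' = Sum.inl n') :
    ∃ r : List Λ, r.length ≤ 4 * P ∧ Path (nxtE ι Γ P E) (Sum.inl n) r (Sum.inl n') := by
  obtain ⟨n1, l1⟩ := cellMap_eq_inl (x := n.1) (w := n.2) h
  obtain ⟨n2, l2⟩ := cellMap_eq_inl (x := n'.1) (w := n'.2) h'
  obtain ⟨-, -, v, hv, -⟩ := n1.spec
  obtain ⟨-, -, v', hv', -⟩ := n2.spec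
  obtain ⟨r, -, hrl, hrp⟩ := hY.short hΓ hE hv hv'
  have p1 := n1.down hΓ hE hY
  have p2 := (n2.down hΓ hE hY).inv (nxtE_symm hΓ hE.symm)
  have p3 := (path_prod2_iff.1 hrp).1.map _ (emb_mor (ι := ι) (Γ := Γ) (P := P))
  rw [h] at p1
  rw [h'] at p2
  exact ⟨_, by simp; omega, (p1.append p3).append p2⟩

theorem up_long {x : X} {w r : List Λ} {a : Λ} {z' : Nxt X Λ V}
    (hp : Path (nxtE ι Γ P E) (Sum.inl (x, w)) (a :: r) z') (hr : Red ι (a :: r))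
    (hu : Up E x w a)
    (hl : (a :: r).length ≤ 24 * P ∨ Geo (nxtE ι Γ P E) (Sum.inl (x, w)) (a :: r) z') :
    ∃ Y, IsCell Γ E Y ∧ (∃ v, (x, v) ∈ Y) ∧ LiftP ι Γ P E Y (Sum.inl (x, w)) (a :: r) z' ∧
      z' ∉ Set.range (emb (X := X) V Λ) := by
  have hbig := hΓ.big
  by_cases hs : (a :: r).length ≤ 24 * P
  · exact up_short hΓ hE hp hr hu (by simp at hs; omega)
  have hg : Geo (nxtE ι Γ P E) (Sum.inl (x, w)) (a :: r) z' := hl.resolve_left hs
  have hlen : 4 * P ≤ r.length := by simp at hs; omega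
  obtain ⟨r1, r2, rfl, hr1⟩ : ∃ r1 r2, r = r1 ++ r2 ∧ r1.length = 4 * P :=
    ⟨r.take (4 * P), r.drop (4 * P), by simp, by simp [hlen]⟩
  have hp' : Path (nxtE ι Γ P E) (Sum.inl (x, w)) ((a :: r1) ++ r2) z' := hp
  obtain ⟨z1, q1, q2⟩ := path_append_iff.1 hp'
  obtain ⟨Y, hY, hx, ⟨u0, u1, e0, pp, rfl⟩, -⟩ :=
    up_short hΓ hE q1 (Red.left (w' := r2) hr) hu (by have := hΓ.pos; omega)
  refine ⟨Y, hY, hx, ?_⟩
  have main : ∀ (r2 t : List Λ) (u1 : V), 4 * P < t.length →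
      Geo (nxtE ι Γ P E) (Sum.inl (x, w)) (t ++ r2) z' → Path Γ u0 t u1 →
      Path (nxtE ι Γ P E) (cellMap ι Γ P E Y u1) r2 z' →
      ∃ u', Path Γ u1 r2 u' ∧ z' = cellMap ι Γ P E Y u' ∧
        z' ∉ Set.range (emb (X := X) V Λ) := by
    intro r2
    have hhigh : ∀ (r2 t : List Λ) (u1 : V), 4 * P < t.length →
        Geo (nxtE ι Γ P E) (Sum.inl (x, w)) (t ++ r2) z' → Path Γ u0 t u1 →
        Path (nxtE ι Γ P E) (cellMap ι Γ P E Y u1) r2 z' →
        cellMap ι Γ P E Y u1 = Sum.inr (Y, u1) := by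
      intro r2 t u1 ht hgeo hpt hq
      rcases hc : cellMap ι Γ P E Y u1 with n | ⟨Y', u'⟩
      · exfalso
        obtain ⟨s, hs1, hs2⟩ := low_close hΓ hE hY e0.symm hc
        have hpt' := hpt.map _ (cellMap_mor (ι := ι) (P := P) hY)
        rw [← e0] at hpt'
        have hg1 := hgeo.left hpt' hq
        rw [hc] at hg1
        have := hg1.2 _ hs2
        omega
      · obtain ⟨rfl, rfl⟩ := cellMap_eq_inr hc
        rfl
    induction r2 with
    | nil =>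
      intro t u1 ht hgeo hpt hq
      have e := path_nil_iff.1 hq
      refine ⟨u1, Path.nil _, e.symm, ?_⟩
      rw [← e, hhigh _ _ _ ht hgeo hpt hq]
      simp [emb]
    | cons c r2 ih =>
      intro t u1 ht hgeo hpt hq
      have hh := hhigh _ _ _ ht hgeo hpt hq
      obtain ⟨z2, e1, e2⟩ := path_cons_iff.1 hq
      rw [hh] at e1
      obtain ⟨-, u2, e3, rfl⟩ := nxtE_high e1
      obtain ⟨u', e4, e5⟩ := ih (t ++ [c]) u2 (by simp; omega) (by simpa using hgeo)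
        (hpt.append (Path.single e3)) e2
      exact ⟨u', Path.cons e3 e4, e5⟩
  obtain ⟨u', e4, e5, e6⟩ := main r2 (a :: r1) u1 (by simp; omega) hg pp q2
  exact ⟨⟨u0, u', e0, Path.append (w := a :: r1) pp e4, e5⟩, e6⟩

/-- A short or geodesic reduced path outside the old level lies in two cells. -/
theorem two_cells {w : List Λ} :
    ∀ {Y : Set (X × V)} {u : V} {z' : Nxt X Λ V}, IsCell Γ E Y →
      Path (Res (nxtE ι Γ P E) (· ∉ Set.range (emb (X := X) V Λ))) (cellMap ι Γ P E Y u) w z' →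
      Red ι w → (w.length ≤ 24 * P ∨ Geo (nxtE ι Γ P E) (cellMap ι Γ P E Y u) w z') →
      ∃ w1 w2 u1 Y', IsCell Γ E Y' ∧ w = w1 ++ w2 ∧ Path Γ u w1 u1 ∧
        LiftP ι Γ P E Y' (cellMap ι Γ P E Y u1) w2 z' ∧ ∃ x v v', (x, v) ∈ Y ∧ (x, v') ∈ Y' := by
  induction w with
  | nil =>
    intro Y u z' hY hp _ _
    obtain ⟨x, v, hx⟩ := hY.nonempty
    exact ⟨[], [], u, Y, hY, rfl, Path.nil _, ⟨u, u, rfl, Path.nil _, (path_nil_iff.1 hp).symm⟩,
      x, v, v, hx, hx⟩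
  | cons a w ih =>
    intro Y u z' hY hp hr hl
    obtain ⟨z1, h1, h2⟩ := path_cons_iff.1 hp
    have lifted : ∀ u1, Γ u a u1 → z1 = cellMap ι Γ P E Y u1 →
        ∃ w1 w2 u1 Y', IsCell Γ E Y' ∧ a :: w = w1 ++ w2 ∧ Path Γ u w1 u1 ∧
        LiftP ι Γ P E Y' (cellMap ι Γ P E Y u1) w2 z' ∧
          ∃ x v v', (x, v) ∈ Y ∧ (x, v') ∈ Y' := by
      rintro u1 e rfl
      obtain ⟨w1, w2, u2, Y', hY', rfl, q1, q2, q3⟩ := ih hY h2 hr.tail (by
        rcases hl with hl | hl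
        · left
          simp at hl
          omega
        · right
          exact hl.tail h1.1 h2.of_res)
      exact ⟨a :: w1, w2, u2, Y', hY', rfl, Path.cons e q1, q2, q3⟩
    rcases hc : cellMap ι Γ P E Y u with ⟨x, w0⟩ | ⟨Y', u'⟩
    · obtain ⟨hn, hl0⟩ := cellMap_eq_inl hc
      cases hn with
      | root hv => exact absurd ⟨x, hc.symm⟩ h1.2.1
      | @cons _ v b w0 n0 e0 _ =>
        by_cases hb : b = a
        · subst hb
          exact lifted v e0 (nxtE_det hΓ hE _ _ _ _ h1.1 (cellMap_mor hY _ _ _ e0))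
        · have hp' := hp.of_res
          rw [hc] at hp' hl
          obtain ⟨Y', hY', ⟨v', hv'⟩, q, -⟩ := up_long hΓ hE hp' hr hb hl
          obtain ⟨-, -, v0, hv0, -⟩ := n0.spec
          refine ⟨[], a :: w, u, Y', hY', rfl, Path.nil _, ?_, x, v0, v', hv0, hv'⟩
          rw [hc]
          exact q
    · obtain ⟨rfl, rfl⟩ := cellMap_eq_inr hc
      have h1' := h1.1
      rw [hc] at h1'
      obtain ⟨-, u1, e, e'⟩ := nxtE_high h1'
      exact lifted u1 e e'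

omit hΓ hE in
theorem exists_cell_of_edge {z z' : Nxt X Λ V} {a : Λ} (h : nxtE ι Γ P E z a z')
    (hz : z ∉ Set.range (emb (X := X) V Λ)) :
    ∃ Y u, IsCell Γ E Y ∧ z = cellMap ι Γ P E Y u := by
  rcases h with ⟨x, x', -, rfl, -⟩ | ⟨Y, u, u', hY, -, rfl, -⟩
  · exact absurd ⟨x, rfl⟩ hz
  · exact ⟨Y, u, hY, rfl⟩

theorem nxt_good : GoodX ι Γ P (nxtE ι Γ P E) := by
  have hsy := nxtE_symm hΓ hE.symm
  have hde := nxtE_det hΓ hE
  refine ⟨hsy, hde, fun z v => ?_⟩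
  by_cases hf : Full Γ (nxtE ι Γ P E) z v
  · exact Or.inl hf
  right
  intro w z' v' hr hp hq
  by_contra hlt
  have hlen : 2 * P + 1 ≤ w.length := by omega
  obtain ⟨r1, r2, rfl, hr1⟩ : ∃ r1 r2, w = r1 ++ r2 ∧ r1.length = 2 * P + 1 :=
    ⟨w.take (2 * P + 1), w.drop (2 * P + 1), by simp, by simp [hlen]⟩
  obtain ⟨z1, p1, -⟩ := path_append_iff.1 hp
  obtain ⟨v1, q1, -⟩ := path_append_iff.1 hq
  have hr' := hr.left
  have back : ∀ {t : List Λ} {z2 : Nxt X Λ V} {v2 : V}, Path (nxtE ι Γ P E) z t z2 →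
      Path Γ v t v2 → ¬ Full Γ (nxtE ι Γ P E) z2 v2 := fun a b c =>
    hf (c.step hde (a.inv hsy) (b.inv hΓ.symm))
  have hres : ∀ {t : List Λ} {z0 z2 : Nxt X Λ V} {v0 v2 : V}, ¬ Full Γ (nxtE ι Γ P E) z0 v0 →
      Path (nxtE ι Γ P E) z0 t z2 → Path Γ v0 t v2 →
      Path (Res (nxtE ι Γ P E) (· ∉ Set.range (emb (X := X) V Λ))) z0 t z2 := by
    intro t
    induction t with
    | nil =>
      intro z0 z2 v0 v2 _ a _
      rw [path_nil_iff.1 a]
      exact Path.nil _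
    | cons c t ih =>
      intro z0 z2 v0 v2 h0 a b
      obtain ⟨z3, a1, a2⟩ := path_cons_iff.1 a
      obtain ⟨v3, b1, b2⟩ := path_cons_iff.1 b
      have h3 : ¬ Full Γ (nxtE ι Γ P E) z3 v3 := fun c =>
        h0 (c.step hde (Path.single (hsy _ _ _ a1)) (Path.single (hΓ.symm _ _ _ b1)))
      refine Path.cons ⟨a1, ?_, ?_⟩ (ih h3 a2 b2)
      · rintro ⟨x, rfl⟩
        exact h0 (nxt_full hΓ hE x v0)
      · rintro ⟨x, rfl⟩
        exact h3 (nxt_full hΓ hE x v3)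
  have p1' := hres hf p1 q1
  obtain ⟨Y, u, hY, rfl⟩ : ∃ Y u, IsCell Γ E Y ∧ z = cellMap ι Γ P E Y u := by
    cases r1 with
    | nil => simp at hr1
    | cons c t =>
      obtain ⟨z3, a1, -⟩ := path_cons_iff.1 p1'
      exact exists_cell_of_edge a1.1 a1.2.1
  obtain ⟨w1, w2, u1, Y', hY', rfl, s1, ⟨u2, u3, s2, s3, rfl⟩, -⟩ :=
    two_cells hΓ hE hY p1' hr' (Or.inl (by have := hΓ.pos; omega))
  obtain ⟨v2, q2, q3⟩ := path_append_iff.1 q1
  by_cases h1 : P < w1.length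
  · have := hΓ.piece _ _ _ _ _ hr'.left h1 s1 q2
    exact hf ⟨_, cellMap_mor hY, by rw [this]⟩
  · have h2 : P < w2.length := by simp at hr1; omega
    have := hΓ.piece _ _ _ _ _ hr'.right h2 s3 q3
    apply back (s1.map _ (cellMap_mor hY)) q2
    exact ⟨_, cellMap_mor hY', by rw [s2, this]⟩

omit hΓ hE in
theorem share_root {Y Y' : Set (X × V)} (hY : IsCell Γ E Y) {u u' : V}
    (h : cellMap ι Γ P E Y u = cellMap ι Γ P E Y' u') : ∃ x v v', (x, v) ∈ Y ∧ (x, v') ∈ Y' := by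
  rcases hc : cellMap ι Γ P E Y u with ⟨x, w0⟩ | ⟨Y2, u2⟩
  · obtain ⟨-, -, v, hv, -⟩ := (cellMap_eq_inl hc).1.spec
    obtain ⟨-, -, v', hv', -⟩ := (cellMap_eq_inl (h.symm.trans hc)).1.spec
    exact ⟨x, v, v', hv, hv'⟩
  · obtain ⟨rfl, -⟩ := cellMap_eq_inr hc
    obtain ⟨rfl, -⟩ := cellMap_eq_inr (h.symm.trans hc)
    obtain ⟨x, v, hx⟩ := hY.nonempty
    exact ⟨x, v, v, hx, hx⟩

theorem anc_close {z z' : Nxt X Λ V} {w : List Λ} {x x' : X}
    (hp : Path (Res (nxtE ι Γ P E) (· ∉ Set.range (emb (X := X) V Λ))) z w z')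
    (hl : w.length ≤ 24 * P ∨ Geo (nxtE ι Γ P E) z w z') (hx : Anc ι Γ P E z x)
    (hx' : Anc ι Γ P E z' x') :
    ∃ r : List Λ, r.length ≤ 8 * P ∧ Path (Res E (NF Γ E)) x r x' := by
  have hsy := nxtE_symm hΓ hE.symm
  have hde := nxtE_det hΓ hE
  obtain ⟨Y, u, v, hY, rfl, hv⟩ := hx
  obtain ⟨Y2, u2, v2, hY2, e2, hv2⟩ := hx'
  obtain ⟨w', hp', hr', hl'⟩ : ∃ w', Path (Res (nxtE ι Γ P E)
      (· ∉ Set.range (emb (X := X) V Λ))) (cellMap ι Γ P E Y u) w' z' ∧ Red ι w' ∧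
      (w'.length ≤ 24 * P ∨ Geo (nxtE ι Γ P E) (cellMap ι Γ P E Y u) w' z') := by
    rcases hl with hl | hl
    · obtain ⟨w', h1, h2, h3⟩ := hp.exists_red (hsy.res _) (hde.res _)
      exact ⟨w', h3, h1, Or.inl (by omega)⟩
    · exact ⟨w, hp, hl.red hsy hde, Or.inr hl⟩
  obtain ⟨w1, w2, u1, Y', hY', -, -, ⟨u3, u4, -, -, e4⟩, x1, v3, v4, m1, m2⟩ :=
    two_cells hΓ hE hY hp' hr' hl'
  obtain ⟨x2, v5, v6, m3, m4⟩ := share_root hY' (e4.symm.trans e2)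
  obtain ⟨r1, l1, p1⟩ := hY.shortNF hΓ hE hv m1
  obtain ⟨r2, l2, p2⟩ := hY'.shortNF hΓ hE m2 m3
  obtain ⟨r3, l3, p3⟩ := hY2.shortNF hΓ hE m4 hv2
  exact ⟨_, by simp; omega, (p1.append p2).append p3⟩

theorem geo_out_bdd {z z' : Nxt X Λ V} {w : List Λ}
    (hp : Path (Res (nxtE ι Γ P E) (· ∉ Set.range (emb (X := X) V Λ))) z w z')
    (hl : Geo (nxtE ι Γ P E) z w z') : w.length ≤ 2 * D := by
  have hsy := nxtE_symm hΓ hE.symm
  have hde := nxtE_det hΓ hE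
  cases w with
  | nil => simp
  | cons a w =>
    obtain ⟨z1, a1, -⟩ := path_cons_iff.1 hp
    obtain ⟨Y, u, hY, rfl⟩ := exists_cell_of_edge a1.1 a1.2.1
    obtain ⟨w1, w2, u1, Y', hY', -, s1, ⟨u3, u4, e3, s2, rfl⟩, -⟩ :=
      two_cells hΓ hE hY hp (hl.red hsy hde) (Or.inr hl)
    obtain ⟨t1, l1, p1⟩ := hΓ.diam _ _ _ s1
    obtain ⟨t2, l2, p2⟩ := hΓ.diam _ _ _ s2
    have q1 := p1.map _ (cellMap_mor (ι := ι) (P := P) hY)
    have q2 := p2.map _ (cellMap_mor (ι := ι) (P := P) hY')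
    rw [← e3] at q2
    have := hl.2 _ (q1.append q2)
    simp at this ⊢
    omega

theorem geo_no_return {x : X} {a : Λ} {r : List Λ} {z z' : Nxt X Λ V}
    (h1 : nxtE ι Γ P E (emb V Λ x) a z) (hz : z ∉ Set.range (emb (X := X) V Λ))
    (hg : Geo (nxtE ι Γ P E) (emb V Λ x) (a :: r) z') : z' ∉ Set.range (emb (X := X) V Λ) := by
  have hsy := nxtE_symm hΓ hE.symm
  have hde := nxtE_det hΓ hE
  have hu : Up E x [] a := by
    rintro ⟨x', hx'⟩
    exact hz ⟨x', hde _ _ _ _ (emb_mor _ _ _ hx') h1⟩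
  obtain ⟨Y, -, -, -, h⟩ := up_long hΓ hE hg.1 (hg.red hsy hde) hu (Or.inr hg)
  exact h

omit hΓ hE in
theorem anc_adj {z : Nxt X Λ V} {a : Λ} {x : X} (h : nxtE ι Γ P E z a (emb V Λ x))
    (hz : z ∉ Set.range (emb (X := X) V Λ)) : Anc ι Γ P E z x := by
  rcases h with ⟨x0, x', -, rfl, -⟩ | ⟨Y, u, u', hY, -, rfl, e⟩
  · exact absurd ⟨x0, rfl⟩ hz
  · obtain ⟨n, -⟩ := cellMap_eq_inl e.symm
    cases n with
    | root hv => exact ⟨Y, u, u', hY, rfl, hv⟩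

/-- Universal property of the next level. -/
theorem nxt_univ {Z : Type} [Nonempty Z] {EZ : Z → Λ → Z → Prop} (hs : Symm ι EZ) (hd : Det EZ)
    (hf : ∀ z v, Full Γ EZ z v) {φ : X → Z} (hφ : Mor E EZ φ) :
    ∃ φ' : Nxt X Λ V → Z, Mor (nxtE ι Γ P E) EZ φ' ∧ ∀ x, φ' (emb V Λ x) = φ x := by
  have hcell : ∀ Y : Set (X × V), IsCell Γ E Y →
      ∃ h : V → Z, Mor Γ EZ h ∧ ∀ x v, (x, v) ∈ Y → h v = φ x := by
    intro Y hY
    obtain ⟨x0, v0, h0⟩ := hY.nonempty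
    obtain ⟨h, hh, e⟩ := hf (φ x0) v0
    refine ⟨h, hh, fun x v hx => ?_⟩
    obtain ⟨w, hw⟩ := hY.conn hΓ hE h0 hx
    obtain ⟨p1, p2⟩ := path_prod2_iff.1 hw
    have q1 := p1.map φ hφ
    have q2 := p2.map h hh
    simp only at q1 q2
    rw [e] at q2
    exact q2.det hd q1
  choose! h hh he using hcell
  let φ' : Nxt X Λ V → Z := fun z =>
    match z with
    | Sum.inl n => if hz : ∃ t, Path EZ t n.2 (φ n.1) then hz.choose else φ n.1
    | Sum.inr c => h c.1 c.2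
  have low : ∀ x w t, Path EZ t w (φ x) → φ' (Sum.inl (x, w)) = t := by
    intro x w t ht
    have hz : ∃ t, Path EZ t w (φ x) := ⟨t, ht⟩
    simp only [φ']
    rw [dif_pos hz]
    exact (hz.choose_spec.inv hs).det hd (ht.inv hs)
  have hemb : ∀ x, φ' (emb V Λ x) = φ x := fun x => low x [] _ (Path.nil _)
  have hc : ∀ Y, IsCell Γ E Y → ∀ u, φ' (cellMap ι Γ P E Y u) = h Y u := by
    intro Y hY u
    rcases hc : cellMap ι Γ P E Y u with ⟨x, w0⟩ | ⟨Y2, u2⟩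
    · obtain ⟨-, -, v, hv, p⟩ := (cellMap_eq_inl hc).1.spec
      apply low
      rw [← he Y hY x v hv]
      exact p.map _ (hh Y hY)
    · obtain ⟨rfl, rfl⟩ := cellMap_eq_inr hc
      rfl
  refine ⟨φ', ?_, hemb⟩
  rintro z a z' (⟨x, x', e, rfl, rfl⟩ | ⟨Y, u, u', hY, e, rfl, rfl⟩)
  · rw [hemb, hemb]
    exact hφ _ _ _ e
  · rw [hc Y hY, hc Y hY]
    exact hh Y hY _ _ _ e

end Construction

end Vale.Agent.P194
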